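import Mathlib

/-!
The notions of problem P252: partial derivatives, the Hessian, and the affine maximal equation.
-/

namespace Vale.Agent.P252

noncomputable section

/-- The partial derivative `∂ᵢ u` at `x`. -/
def partialDeriv {n : ℕ} (u : (Fin n → ℝ) → ℝ) (i : Fin n) (x : Fin n → ℝ) : ℝ :=
  fderiv ℝ u x (Pi.single i 1)

/-- The Hessian matrix `(∂ᵢⱼ u)` at `x`. -/
def hessianMatrix {n : ℕ} (u : (Fin n → ℝ) → ℝ) (x : Fin n → ℝ) : Matrix (Fin n) (Fin n) ℝ :=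
  Matrix.of fun i j => partialDeriv (partialDeriv u i) j x

/-- `w = (det D²u)^(-(n+1)/(n+2))`. -/
def affineWeight {n : ℕ} (u : (Fin n → ℝ) → ℝ) (x : Fin n → ℝ) : ℝ :=
  (hessianMatrix u x).det ^ (-((n : ℝ) + 1) / ((n : ℝ) + 2))

/-- The affine maximal equation `∑ U^{ij} ∂ᵢⱼ w = 0`, `U^{ij} = det(D²u) (D²u)⁻¹ᵢⱼ`. -/
def IsAffineMaximal {n : ℕ} (u : (Fin n → ℝ) → ℝ) : Prop :=
  ∀ x, ∑ i, ∑ j, (hessianMatrix u x).det * (hessianMatrix u x)⁻¹ i j *
    partialDeriv (partialDeriv (affineWeight u) j) i x = 0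

end

end Vale.Agent.P252
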