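import Mathlib
import Vale.Agent.P252.Defs

/-!
`u (z, y) = √(z² + G(|y|²)²)` solves the affine maximal equation when `G' = G A / 2` and `(A, B)`
solves the reduced system.
-/

namespace Vale.Agent.P252

open Matrix Finset Topology
open scoped ContDiff

noncomputable section

variable {m : ℕ}

/-- The first unit covector. -/
def ev0 (i : Fin (m + 1)) : ℝ := if i = 0 then 1 else 0

/-- The vector `(0, y)` for `x = (z, y)`. -/
def tailVec (x : Fin (m + 1) → ℝ) (i : Fin (m + 1)) : ℝ := if i = 0 then 0 else x i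

/-- `|y|²` for `x = (z, y)`. -/
def sq (x : Fin (m + 1) → ℝ) : ℝ := ∑ i, tailVec x i ^ 2

lemma sq_nonneg' (x : Fin (m + 1) → ℝ) : 0 ≤ sq x := Finset.sum_nonneg fun _ _ => by positivity

lemma dot_ev0_ev0 : (ev0 (m := m)) ⬝ᵥ ev0 = 1 := by simp [ev0, dotProduct]

lemma dot_ev0_tail (x : Fin (m + 1) → ℝ) : ev0 ⬝ᵥ tailVec x = 0 := by
  refine Finset.sum_eq_zero fun i _ => ?_
  by_cases hi : i = 0 <;> simp [ev0, tailVec, hi]

lemma dot_tail_ev0 (x : Fin (m + 1) → ℝ) : tailVec x ⬝ᵥ ev0 = 0 := by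
  simp [ev0, tailVec, dotProduct]

lemma dot_tail_tail (x : Fin (m + 1) → ℝ) : tailVec x ⬝ᵥ tailVec x = sq x := by
  simp [dotProduct, sq, ← pow_two]

/-- `α + a e eᵀ + b e ξᵀ + c ξ eᵀ + d ξ ξᵀ`. -/
def rankTwo (x : Fin (m + 1) → ℝ) (α a b c d : ℝ) : Matrix (Fin (m + 1)) (Fin (m + 1)) ℝ :=
  α • (1 : Matrix (Fin (m + 1)) (Fin (m + 1)) ℝ) + a • vecMulVec ev0 ev0
    + b • vecMulVec ev0 (tailVec x) + c • vecMulVec (tailVec x) ev0
    + d • vecMulVec (tailVec x) (tailVec x)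

lemma rankTwo_apply (x : Fin (m + 1) → ℝ) (α a b c d : ℝ) (i j : Fin (m + 1)) :
    rankTwo x α a b c d i j = α * (if i = j then 1 else 0) + a * (ev0 i * ev0 j)
      + b * (ev0 i * tailVec x j) + c * (tailVec x i * ev0 j)
      + d * (tailVec x i * tailVec x j) := by
  simp [rankTwo, Matrix.add_apply, Matrix.smul_apply, vecMulVec_apply, Matrix.one_apply]

lemma rankTwo_transpose (x : Fin (m + 1) → ℝ) (α a b c d : ℝ) :
    (rankTwo x α a b c d)ᵀ = rankTwo x α a c b d := by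
  ext i j
  simp only [Matrix.transpose_apply, rankTwo_apply, eq_comm (a := j) (b := i)]
  ring

lemma rankTwo_mul (x : Fin (m + 1) → ℝ) (α a b c d β a' b' c' d' : ℝ) :
    rankTwo x α a b c d * rankTwo x β a' b' c' d' = rankTwo x (α * β)
      (α * a' + β * a + a * a' + sq x * b * c') (α * b' + β * b + a * b' + sq x * b * d')
      (α * c' + β * c + c * a' + sq x * d * c') (α * d' + β * d + c * b' + sq x * d * d') := by
  simp only [rankTwo, Matrix.add_mul, Matrix.mul_add, smul_mul_assoc, mul_smul_comm, one_mul, mul_one,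
    vecMulVec_mul_vecMulVec, dot_ev0_ev0, dot_ev0_tail, dot_tail_ev0, dot_tail_tail, zero_smul,
    vecMulVec_zero, smul_zero, smul_smul, one_smul, vecMulVec_smul]
  module

lemma rankTwo_trace (x : Fin (m + 1) → ℝ) (α a b c d : ℝ) :
    (rankTwo x α a b c d).trace = ((m : ℝ) + 1) * α + a + sq x * d := by
  simp [rankTwo, trace_add, trace_smul, trace_vecMulVec, dot_ev0_ev0, dot_ev0_tail, dot_tail_ev0,
    dot_tail_tail, mul_comm]

lemma sum_sum_mk (x : Fin (m + 1) → ℝ) (α a b c d β a' b' c' d' : ℝ) :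
    ∑ i, ∑ j, rankTwo x α a b c d i j * rankTwo x β a' b' c' d' j i =
      ((m : ℝ) + 1) * (α * β) + (α * a' + β * a + a * a' + sq x * b * c')
        + sq x * (α * d' + β * d + c * b' + sq x * d * d') := by
  rw [← rankTwo_trace x _ _ (α * b' + β * b + a * b' + sq x * b * d')
    (α * c' + β * c + c * a' + sq x * d * c'), ← rankTwo_mul]
  simp [Matrix.trace, Matrix.mul_apply]

lemma rankTwo_det (x : Fin (m + 1) → ℝ) (α a b c d : ℝ) (hα : α ≠ 0) :
    (rankTwo x α a b c d).det = α ^ (m + 1) *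
      ((1 + a / α) * (1 + d * sq x / α) - (b * sq x / α) * (c / α)) := by
  set U : Matrix (Fin (m + 1)) (Fin 2) ℝ := Matrix.of fun i => ![ev0 i, tailVec x i]
  set V : Matrix (Fin 2) (Fin (m + 1)) ℝ :=
    Matrix.of fun k j => ![(a * ev0 j + b * tailVec x j) / α, (c * ev0 j + d * tailVec x j) / α] k
  have h : rankTwo x α a b c d = α • (1 + U * V) := by
    ext i j
    simp only [Matrix.smul_apply, Matrix.add_apply, rankTwo_apply, Matrix.mul_apply, Fin.sum_univ_two,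
      U, V, Matrix.of_apply, Matrix.cons_val_zero, Matrix.cons_val_one, Matrix.one_apply,
      smul_eq_mul]
    field_simp
    ring
  rw [h, Matrix.det_smul, Matrix.det_one_add_mul_comm, Matrix.det_fin_two]
  have e00 : ∑ j, (a * ev0 j + b * tailVec x j) / α * ev0 j = a / α := by
    simp [ev0, tailVec, Finset.sum_ite_eq']
  have e01 : ∑ j, (a * ev0 j + b * tailVec x j) / α * tailVec x j = b * sq x / α := by
    rw [sq, Finset.mul_sum, Finset.sum_div]
    refine Finset.sum_congr rfl fun j _ => ?_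
    by_cases hj : j = 0 <;> simp [ev0, tailVec, hj]
    ring
  have e10 : ∑ j, (c * ev0 j + d * tailVec x j) / α * ev0 j = c / α := by
    simp [ev0, tailVec, Finset.sum_ite_eq']
  have e11 : ∑ j, (c * ev0 j + d * tailVec x j) / α * tailVec x j = d * sq x / α := by
    rw [sq, Finset.mul_sum, Finset.sum_div]
    refine Finset.sum_congr rfl fun j _ => ?_
    by_cases hj : j = 0 <;> simp [ev0, tailVec, hj]
    ring
  simp only [Matrix.add_apply, Matrix.mul_apply, U, V, Matrix.of_apply, Matrix.cons_val_zero,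
    Matrix.cons_val_one, e00, e01, e10, e11, Matrix.one_apply_eq, Fintype.card_fin]
  norm_num

lemma rankTwo_quad (x v : Fin (m + 1) → ℝ) (α a b c d : ℝ) :
    v ⬝ᵥ (rankTwo x α a b c d *ᵥ v) = α * (v 0 ^ 2 + ∑ i, tailVec v i ^ 2) + a * v 0 ^ 2
      + (b + c) * (v 0 * (tailVec x ⬝ᵥ v)) + d * (tailVec x ⬝ᵥ v) ^ 2 := by
  have h1 : ev0 ⬝ᵥ v = v 0 := by simp [ev0, dotProduct]
  have h2 : v ⬝ᵥ ev0 = v 0 := by simp [ev0, dotProduct]
  have h3 : v ⬝ᵥ v = v 0 ^ 2 + ∑ i, tailVec v i ^ 2 := by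
    simp only [dotProduct, Fin.sum_univ_succ, tailVec]
    simp [Fin.succ_ne_zero, pow_two]
  have h4 : v ⬝ᵥ tailVec x = tailVec x ⬝ᵥ v := dotProduct_comm _ _
  simp only [rankTwo, Matrix.add_mulVec, Matrix.smul_mulVec, one_mulVec, vecMulVec_mulVec,
    dotProduct_add, dotProduct_smul, op_smul_eq_smul, smul_eq_mul, h1, h2, h3, h4]
  ring

lemma line_deriv_coord (x : Fin (m + 1) → ℝ) (i k : Fin (m + 1)) :
    HasDerivAt (fun t : ℝ => (x + t • (Pi.single i 1 : Fin (m + 1) → ℝ)) k)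
      (if i = k then 1 else 0) 0 := by
  have h := ((hasDerivAt_id (0:ℝ)).mul_const ((Pi.single i (1:ℝ) : Fin (m + 1) → ℝ) k)).const_add (x k)
  refine (h.congr_deriv ?_).congr_of_eventuallyEq (Filter.Eventually.of_forall fun t => by simp)
  by_cases hk : i = k
  · subst hk; simp
  · simp [Pi.single_eq_of_ne (Ne.symm hk), hk]

lemma line_deriv_tail (x : Fin (m + 1) → ℝ) (i k : Fin (m + 1)) :
    HasDerivAt (fun t : ℝ => tailVec (x + t • (Pi.single i 1 : Fin (m + 1) → ℝ)) k)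
      ((if i = k then 1 else 0) - ev0 i * ev0 k) 0 := by
  by_cases hk : k = 0
  · subst hk
    simp only [tailVec, ↓reduceIte, ev0]
    refine (hasDerivAt_const (0:ℝ) (0:ℝ)).congr_deriv ?_
    split_ifs <;> norm_num
  · simp only [tailVec, hk, if_false, ev0, mul_zero, sub_zero]
    exact line_deriv_coord x i k

lemma line_deriv_sq (x : Fin (m + 1) → ℝ) (i : Fin (m + 1)) :
    HasDerivAt (fun t : ℝ => sq (x + t • (Pi.single i 1 : Fin (m + 1) → ℝ)))
      (2 * tailVec x i) 0 := by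
  have h : HasDerivAt (fun t : ℝ => ∑ k, tailVec (x + t • (Pi.single i 1 : Fin (m + 1) → ℝ)) k ^ 2)
      (∑ k, 2 * tailVec x k * ((if i = k then 1 else 0) - ev0 i * ev0 k)) 0 :=
    HasDerivAt.fun_sum fun k _ => by simpa using (line_deriv_tail x i k).fun_pow 2
  refine h.congr_deriv ?_
  simp [mul_sub, Finset.sum_sub_distrib, tailVec, ev0]

lemma line_deriv_fst (x : Fin (m + 1) → ℝ) (i : Fin (m + 1)) :
    HasDerivAt (fun t : ℝ => (x + t • (Pi.single i 1 : Fin (m + 1) → ℝ)) 0) (ev0 i) 0 := by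
  simpa [ev0] using line_deriv_coord x i 0

lemma partialDeriv_of_line {f : (Fin (m + 1) → ℝ) → ℝ} {x : Fin (m + 1) → ℝ} {i : Fin (m + 1)}
    {a : ℝ} (hf : DifferentiableAt ℝ f x)
    (h : HasDerivAt (fun t : ℝ => f (x + t • (Pi.single i 1 : Fin (m + 1) → ℝ))) a 0) :
    partialDeriv f i x = a := by
  have hl : HasDerivAt (fun t : ℝ => x + t • (Pi.single i 1 : Fin (m + 1) → ℝ))
      (Pi.single i 1 : Fin (m + 1) → ℝ) 0 := by
    simpa using ((hasDerivAt_id (0:ℝ)).smul_const (Pi.single i 1 : Fin (m + 1) → ℝ)).const_add x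
  have hf' : HasFDerivAt f (fderiv ℝ f x) (x + (0:ℝ) • (Pi.single i 1 : Fin (m + 1) → ℝ)) := by
    simpa using hf.hasFDerivAt
  exact (hf'.comp_hasDerivAt 0 hl).unique h

lemma differentiable_tail (i : Fin (m + 1)) : Differentiable ℝ (fun x => tailVec x i) := by
  by_cases hi : i = 0 <;> simp only [tailVec, hi, ↓reduceIte] <;> fun_prop

lemma contDiff_sq : ContDiff ℝ ∞ (sq : (Fin (m + 1) → ℝ) → ℝ) := by
  refine ContDiff.sum fun i _ => ?_
  by_cases hi : i = 0 <;> simp only [tailVec, hi, ↓reduceIte] <;> fun_prop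

/-- The data of a solution of the reduced system. -/
structure Data (m : ℕ) where
  /-- profile -/
  G : ℝ → ℝ
  /-- `2 G' / G` -/
  A : ℝ → ℝ
  /-- second unknown -/
  B : ℝ → ℝ
  G_pos : ∀ s, 0 ≤ s → 0 < G s
  G_smooth : ∀ s, 0 ≤ s → ContDiffAt ℝ ∞ G s
  G_deriv : ∀ s, 0 ≤ s → HasDerivAt G (G s * A s / 2) s
  A_pos : ∀ s, 0 ≤ s → 0 < A s
  Q_pos : ∀ s, 0 ≤ s → 0 < 1 + s * B s
  A_deriv : ∀ s, 0 ≤ s → HasDerivAt A (A s * (B s - A s) / 2) s
  Q_deriv : ∀ s, 0 ≤ s → HasDerivAt (fun y => y * B y) ((1 + s * B s) *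
    (A s * ((m : ℝ) + 1 + 2) * (1 + 2 * (s * B s)) / ((m : ℝ) + 1 - 1 + 2 * (s * A s))
      - ((m : ℝ) + 1 - 1) * B s + A s) / 2) s

lemma trace_identity (N u z G A B s L L' : ℝ) (hG : G ≠ 0) (hA : A ≠ 0) (hQ : 1 + s * B ≠ 0)
    (hU : z ^ 2 + G ^ 2 ≠ 0) :
    let U := z ^ 2 + G ^ 2
    let P := G ^ 2 * A
    let α := u / (G ^ 2 * A)
    let a := u * (U / G ^ 2 + z ^ 2 * s * A / (G ^ 2 * (1 + s * B)) - 1 / (G ^ 2 * A))
    let b := u * z / (G ^ 2 * (1 + s * B))
    let d := -(u * B) / (G ^ 2 * A * (1 + s * B))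
    let β := (N + 2) * P + 2 * U * L
    let a' := (N + 2) * (1 - P) - 2 * U * L + N * z ^ 2 * (N + 2) / U
    let b' := (N + 2) * z * (N * P / U + 2 * L)
    let d' := ((N + 2) * P + 2 * U * L) * (N * P / U + 2 * L) + (N + 2) * (P * (A + B))
      + 4 * L * P + 4 * U * L'
    (N + 1) * (α * β) + (α * a' + β * a + a * a' + s * b * b')
        + s * (α * d' + β * d + b * b' + s * d * d') =
      u * U / (G ^ 2 * A * (1 + s * B)) * ((N + 1) * (N + 2) * A * (1 + s * B + s * A)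
        + 4 * (N + 2) * s * A * L + 2 * L * ((N - 1) * (1 + s * B) + 1)
        + 4 * s * (L' + L ^ 2)) := by
  obtain ⟨Q, hQd⟩ : ∃ Q, Q = 1 + s * B := ⟨_, rfl⟩
  have hQ' : Q ≠ 0 := hQd ▸ hQ
  simp only [← hQd]
  field_simp
  subst hQd
  ring

lemma key_identity (N A B s : ℝ) (hD : N + 2 * (s * A) ≠ 0) :
    let D := N + 2 * (s * A)
    let num := N + 1 + 2 * (s * A) + 2 * (s * B)
    let dsA := A + s * (A * (B - A) / 2)
    let dsB := (1 + s * B) * (A * (N + 1 + 2) * (1 + 2 * (s * B)) / D - N * B + A) / 2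
    let L := -((N + 1 + 1) / 2) * A * num / D
    let L' := -((N + 1 + 1) / 2) * (A * (B - A) / 2 * num / D
      + A * ((2 * dsA + 2 * dsB) / D - num * (2 * dsA) / D ^ 2))
    (N + 1) * (N + 2) * A * (1 + s * B + s * A)
        + 4 * (N + 2) * s * A * L + 2 * L * ((N - 1) * (1 + s * B) + 1)
        + 4 * s * (L' + L ^ 2) = 0 := by
  obtain ⟨D, hDd⟩ : ∃ D, D = N + 2 * (s * A) := ⟨_, rfl⟩
  have hD' : D ≠ 0 := hDd ▸ hD
  simp only [← hDd]
  field_simp
  subst hDd
  ring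

namespace Data

variable (D : Data m)

/-- The solution `u`. -/
def u (x : Fin (m + 1) → ℝ) : ℝ := Real.sqrt (x 0 ^ 2 + D.G (sq x) ^ 2)

lemma rad2_pos (x : Fin (m + 1) → ℝ) : 0 < x 0 ^ 2 + D.G (sq x) ^ 2 := by
  have := D.G_pos _ (sq_nonneg' x)
  positivity

lemma u_pos (x : Fin (m + 1) → ℝ) : 0 < D.u x := Real.sqrt_pos.mpr (D.rad2_pos x)

lemma u_sq (x : Fin (m + 1) → ℝ) : D.u x ^ 2 = x 0 ^ 2 + D.G (sq x) ^ 2 :=
  Real.sq_sqrt (D.rad2_pos x).le

lemma u_smooth : ContDiff ℝ ∞ D.u := by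
  refine contDiff_iff_contDiffAt.mpr fun x => ?_
  refine ContDiffAt.sqrt ?_ (D.rad2_pos x).ne'
  exact (contDiff_apply ℝ ℝ (0 : Fin (m + 1))).contDiffAt.pow 2 |>.add
    (((D.G_smooth _ (sq_nonneg' x)).comp x contDiff_sq.contDiffAt).pow 2)

/-- `P = 2 G G'`. -/
def P (s : ℝ) : ℝ := D.G s ^ 2 * D.A s

lemma P_deriv {s : ℝ} (hs : 0 ≤ s) :
    HasDerivAt D.P (D.G s ^ 2 * D.A s * (D.A s + D.B s) / 2) s := by
  refine (((D.G_deriv s hs).fun_pow 2).mul (D.A_deriv s hs)).congr_deriv ?_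
  simp
  ring

lemma line_deriv_u (x : Fin (m + 1) → ℝ) (i : Fin (m + 1)) :
    HasDerivAt (fun t : ℝ => D.u (x + t • (Pi.single i 1 : Fin (m + 1) → ℝ)))
      ((x 0 * ev0 i + D.P (sq x) * tailVec x i) / D.u x) 0 := by
  have hs := sq_nonneg' x
  have hG : HasDerivAt (fun t : ℝ => D.G (sq (x + t • (Pi.single i 1 : Fin (m + 1) → ℝ))))
      (D.G (sq x) * D.A (sq x) / 2 * (2 * tailVec x i)) 0 :=
    HasDerivAt.comp_of_eq 0 (D.G_deriv _ hs) (line_deriv_sq x i) (by simp)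
  have h := (((line_deriv_fst x i).fun_pow 2).fun_add (hG.fun_pow 2)).sqrt
    (by simpa using (D.rad2_pos x).ne')
  refine h.congr_deriv ?_
  have := D.u_pos x
  simp [u, P] at this ⊢
  field_simp

lemma partial_u (i : Fin (m + 1)) : partialDeriv D.u i =
    fun x => (x 0 * ev0 i + D.P (sq x) * tailVec x i) / D.u x := by
  funext x
  exact partialDeriv_of_line ((D.u_smooth.differentiable (by simp)) x) (D.line_deriv_u x i)

lemma hessian_u (x : Fin (m + 1) → ℝ) :
    hessianMatrix D.u x = rankTwo x (D.P (sq x) / D.u x)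
      ((D.G (sq x) ^ 2 / (x 0 ^ 2 + D.G (sq x) ^ 2) - D.P (sq x)) / D.u x)
      (-(x 0 * D.P (sq x)) / ((x 0 ^ 2 + D.G (sq x) ^ 2) * D.u x))
      (-(x 0 * D.P (sq x)) / ((x 0 ^ 2 + D.G (sq x) ^ 2) * D.u x))
      ((D.P (sq x) * (D.A (sq x) + D.B (sq x))
        - D.P (sq x) ^ 2 / (x 0 ^ 2 + D.G (sq x) ^ 2)) / D.u x) := by
  ext i j
  have hs := sq_nonneg' x
  have hu := D.u_pos x
  rw [hessianMatrix, Matrix.of_apply, rankTwo_apply, D.partial_u i]
  refine partialDeriv_of_line ?_ ?_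
  · have h1 : DifferentiableAt ℝ (fun y => D.P (sq y)) x :=
      DifferentiableAt.comp x (D.P_deriv hs).differentiableAt
        ((contDiff_sq.differentiable (by simp)) x)
    have h2 : DifferentiableAt ℝ (fun y : Fin (m + 1) → ℝ => y 0) x := differentiableAt_apply 0 x
    simp only [div_eq_mul_inv]
    exact ((h2.mul_const _).add (h1.mul (differentiable_tail i x))).mul
      (((D.u_smooth.differentiable (by simp)) x).fun_inv hu.ne')
  · have hP : HasDerivAt (fun t : ℝ => D.P (sq (x + t • (Pi.single j 1 : Fin (m + 1) → ℝ))))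
        (D.G (sq x) ^ 2 * D.A (sq x) * (D.A (sq x) + D.B (sq x)) / 2 * (2 * tailVec x j)) 0 :=
      HasDerivAt.comp_of_eq 0 (D.P_deriv hs) (line_deriv_sq x j) (by simp)
    have h := (((line_deriv_fst x j).mul_const (ev0 i)).fun_add
      (hP.fun_mul (line_deriv_tail x j i))).fun_div (D.line_deriv_u x j) (by simpa using hu.ne')
    refine h.congr_deriv ?_
    have e2 := D.u_sq x
    simp only [zero_smul, add_zero, eq_comm (a := j) (b := i)]
    rw [← e2]
    simp only [P]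
    field_simp
    ring_nf
    linear_combination (ev0 i * ev0 j) * e2

lemma det_hessian (x : Fin (m + 1) → ℝ) :
    (hessianMatrix D.u x).det = (D.P (sq x) / D.u x) ^ (m + 1) *
      ((1 + sq x * D.B (sq x)) / (D.A (sq x) * (x 0 ^ 2 + D.G (sq x) ^ 2))) := by
  have hs := sq_nonneg' x
  have hu := D.u_pos x
  have hG := D.G_pos _ hs
  have hA := D.A_pos _ hs
  have hU := D.rad2_pos x
  have hP : 0 < D.P (sq x) := by unfold P; positivity
  rw [D.hessian_u, rankTwo_det _ _ _ _ _ _ (by positivity)]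
  congr 1
  simp only [P]
  field_simp
  ring

lemma det_pos (x : Fin (m + 1) → ℝ) : 0 < (hessianMatrix D.u x).det := by
  have hs := sq_nonneg' x
  have := D.u_pos x
  have := D.G_pos _ hs
  have := D.A_pos _ hs
  have := D.Q_pos _ hs
  have := D.rad2_pos x
  rw [D.det_hessian]
  unfold P
  positivity

lemma hessian_posDef (x : Fin (m + 1) → ℝ) : (hessianMatrix D.u x).PosDef := by
  have hs := sq_nonneg' x
  have hu := D.u_pos x
  have hG := D.G_pos _ hs
  have hA := D.A_pos _ hs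
  have hQ := D.Q_pos _ hs
  have hU := D.rad2_pos x
  rw [D.hessian_u, posDef_iff_dotProduct_mulVec]
  refine ⟨?_, fun v hv => ?_⟩
  · rw [Matrix.IsHermitian, conjTranspose_eq_transpose_of_trivial, rankTwo_transpose]
  rw [star_trivial, rankTwo_quad]
  set η := tailVec x ⬝ᵥ v
  set W := ∑ i, tailVec v i ^ 2 with hW
  set G := D.G (sq x)
  set A := D.A (sq x)
  set B := D.B (sq x)
  set z := x 0
  have hW0 : 0 ≤ W := Finset.sum_nonneg fun _ _ => by positivity
  have hcs : η ^ 2 ≤ sq x * W := by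
    have e : η = ∑ i, tailVec x i * tailVec v i := by
      refine Finset.sum_congr rfl fun i _ => ?_
      by_cases hi : i = 0 <;> simp [tailVec, hi]
    rw [e]
    exact Finset.sum_mul_sq_le_sq_mul_sq _ _ _
  have key : 0 ≤ W + B * η ^ 2 ∧ (W ≠ 0 → 0 < W + B * η ^ 2) := by
    rcases le_or_gt 0 B with hB | hB
    · exact ⟨by positivity, fun hW1 => add_pos_of_pos_of_nonneg (lt_of_le_of_ne hW0 (Ne.symm hW1))
        (by positivity)⟩
    · have : (1 + sq x * B) * W ≤ W + B * η ^ 2 := by nlinarith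
      exact ⟨le_trans (by positivity) this, fun hW1 => lt_of_lt_of_le
        (mul_pos hQ (lt_of_le_of_ne hW0 (Ne.symm hW1))) this⟩
  have hid : (D.P (sq x) / D.u x * (v 0 ^ 2 + W)
      + (G ^ 2 / (z ^ 2 + G ^ 2) - D.P (sq x)) / D.u x * v 0 ^ 2
      + (-(z * D.P (sq x)) / ((z ^ 2 + G ^ 2) * D.u x)
        + -(z * D.P (sq x)) / ((z ^ 2 + G ^ 2) * D.u x)) * (v 0 * η)
      + (D.P (sq x) * (A + B) - D.P (sq x) ^ 2 / (z ^ 2 + G ^ 2)) / D.u x * η ^ 2)
      = ((G * v 0 - z * G * A * η) ^ 2 + (z ^ 2 + G ^ 2) * (G ^ 2 * A) * (W + B * η ^ 2))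
        / ((z ^ 2 + G ^ 2) * D.u x) := by
    simp only [P]
    field_simp
    ring
  rw [hid]
  apply div_pos _ (by positivity)
  by_cases hW1 : W = 0
  · have hη : η = 0 := by
      rw [hW1, mul_zero] at hcs
      exact pow_eq_zero_iff two_ne_zero |>.mp (le_antisymm hcs (by positivity))
    have hv0 : v 0 ≠ 0 := by
      intro h0
      refine hv (funext fun i => ?_)
      by_cases hi : i = 0
      · simp [hi, h0]
      · have := (Finset.sum_eq_zero_iff_of_nonneg (fun k _ => by positivity)).mp hW1 i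
          (Finset.mem_univ _)
        simpa [tailVec, hi] using this
    rw [hη, hW1]
    simp only [mul_zero, sub_zero, zero_pow two_ne_zero, add_zero]
    positivity
  · exact add_pos_of_nonneg_of_pos (by positivity)
      (mul_pos (by positivity) (key.2 hW1))

/-- `L = M'/M`. -/
def L (s : ℝ) : ℝ :=
  -(((m : ℝ) + 1 + 1) / 2) * D.A s * ((m : ℝ) + 1 + 2 * (s * D.A s) + 2 * (s * D.B s))
    / ((m : ℝ) + 1 - 1 + 2 * (s * D.A s))

/-- The radial factor `M` of `w = u^(n+1) M`. -/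
def M (s : ℝ) : ℝ :=
  Real.exp (-((m : ℝ) + 1 + 1) / ((m : ℝ) + 1 + 2) * (2 * ((m : ℝ) + 1) * Real.log (D.G s)
    + (m : ℝ) * Real.log (D.A s) + Real.log (1 + s * D.B s)))

lemma den_pos (hm : 1 ≤ m) {s : ℝ} (hs : 0 ≤ s) : 0 < (m : ℝ) + 1 - 1 + 2 * (s * D.A s) := by
  have := D.A_pos s hs
  have : (1 : ℝ) ≤ m := by exact_mod_cast hm
  rw [add_sub_cancel_right]
  positivity

lemma M_deriv (hm : 1 ≤ m) {s : ℝ} (hs : 0 ≤ s) : HasDerivAt D.M (D.M s * D.L s) s := by
  have hG := D.G_pos s hs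
  have hA := D.A_pos s hs
  have hQ := D.Q_pos s hs
  have hD := D.den_pos hm hs
  have h := (((((D.G_deriv s hs).log hG.ne').const_mul (2 * ((m : ℝ) + 1))).fun_add
    (((D.A_deriv s hs).log hA.ne').const_mul (m : ℝ))).fun_add
    (((D.Q_deriv s hs).const_add 1).log hQ.ne')).const_mul
      (-((m : ℝ) + 1 + 1) / ((m : ℝ) + 1 + 2))
  refine h.exp.congr_deriv ?_
  show D.M s * _ = _
  congr 1
  have e : ∀ X : ℝ, (1 + s * D.B s) * X / 2 / (1 + s * D.B s) = X / 2 := fun X => by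
    rw [mul_div_assoc, mul_div_cancel_left₀ _ hQ.ne']
  rw [e]
  simp only [L]
  rw [add_sub_cancel_right] at hD ⊢
  have hD' := hD.ne'
  field_simp
  ring

/-- Derivative of `L`. -/
def L' (s : ℝ) : ℝ :=
  -(((m : ℝ) + 1 + 1) / 2) * (D.A s * (D.B s - D.A s) / 2 *
      ((m : ℝ) + 1 + 2 * (s * D.A s) + 2 * (s * D.B s)) / ((m : ℝ) + 1 - 1 + 2 * (s * D.A s))
    + D.A s * ((2 * (D.A s + s * (D.A s * (D.B s - D.A s) / 2)) + 2 * ((1 + s * D.B s) *
        (D.A s * ((m : ℝ) + 1 + 2) * (1 + 2 * (s * D.B s)) / ((m : ℝ) + 1 - 1 + 2 * (s * D.A s))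
          - ((m : ℝ) + 1 - 1) * D.B s + D.A s) / 2)) / ((m : ℝ) + 1 - 1 + 2 * (s * D.A s))
      - ((m : ℝ) + 1 + 2 * (s * D.A s) + 2 * (s * D.B s))
          * (2 * (D.A s + s * (D.A s * (D.B s - D.A s) / 2)))
          / ((m : ℝ) + 1 - 1 + 2 * (s * D.A s)) ^ 2))

lemma L_deriv (hm : 1 ≤ m) {s : ℝ} (hs : 0 ≤ s) : HasDerivAt D.L (D.L' s) s := by
  have hD := D.den_pos hm hs
  have hsA : HasDerivAt (fun y => y * D.A y) (D.A s + s * (D.A s * (D.B s - D.A s) / 2)) s := by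
    simpa using (hasDerivAt_id s).fun_mul (D.A_deriv s hs)
  have hnum := ((hsA.const_mul 2).const_add ((m : ℝ) + 1)).fun_add ((D.Q_deriv s hs).const_mul 2)
  have hden := (hsA.const_mul 2).const_add ((m : ℝ) + 1 - 1)
  have h := (((D.A_deriv s hs).const_mul (-(((m : ℝ) + 1 + 1) / 2))).fun_mul hnum).fun_div hden hD.ne'
  refine h.congr_deriv ?_
  simp only [L']
  field_simp
  ring

lemma weight_eq : affineWeight D.u = fun x => D.u x ^ (m + 2) * D.M (sq x) := by
  funext x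
  have hs := sq_nonneg' x
  have hu := D.u_pos x
  have hG := D.G_pos _ hs
  have hA := D.A_pos _ hs
  have hQ := D.Q_pos _ hs
  have hU := D.rad2_pos x
  unfold affineWeight
  rw [Real.rpow_def_of_pos (D.det_pos x), D.det_hessian]
  have hl : Real.log ((D.P (sq x) / D.u x) ^ (m + 1) *
      ((1 + sq x * D.B (sq x)) / (D.A (sq x) * (x 0 ^ 2 + D.G (sq x) ^ 2))))
      = (2 * ((m : ℝ) + 1) * Real.log (D.G (sq x)) + (m : ℝ) * Real.log (D.A (sq x))
        + Real.log (1 + sq x * D.B (sq x))) - ((m : ℝ) + 1 + 2) * Real.log (D.u x) := by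
    rw [← D.u_sq x]
    have hP : 0 < D.P (sq x) := by unfold P; positivity
    rw [Real.log_mul (by positivity) (by positivity), Real.log_pow,
      Real.log_div hP.ne' hu.ne', Real.log_div hQ.ne' (by positivity),
      Real.log_mul hA.ne' (by positivity), Real.log_pow, P,
      Real.log_mul (by positivity) hA.ne', Real.log_pow]
    push_cast
    ring
  rw [hl]
  have hp : D.u x ^ (m + 2) = Real.exp (((m : ℝ) + 2) * Real.log (D.u x)) := by
    have := Real.exp_nat_mul (Real.log (D.u x)) (m + 2)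
    rw [Real.exp_log hu] at this
    push_cast at this
    exact this.symm
  rw [hp, M, ← Real.exp_add]
  congr 1
  push_cast
  field_simp
  ring

lemma weight_diff (hm : 1 ≤ m) : Differentiable ℝ (fun x => D.u x ^ m * D.M (sq x)) := fun x =>
  ((D.u_smooth.differentiable (by simp) x).fun_pow m).mul
    (DifferentiableAt.comp (g := D.M) x (D.M_deriv hm (sq_nonneg' x)).differentiableAt
      ((contDiff_sq.differentiable (by simp)) x))

lemma line_deriv_weight (hm : 1 ≤ m) (k : ℕ) (x : Fin (m + 1) → ℝ) (i : Fin (m + 1)) :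
    HasDerivAt (fun t : ℝ => D.u (x + t • (Pi.single i 1 : Fin (m + 1) → ℝ)) ^ k *
        D.M (sq (x + t • (Pi.single i 1 : Fin (m + 1) → ℝ))))
      (D.u x ^ k * D.M (sq x) * ((k : ℝ) * (x 0 * ev0 i + D.P (sq x) * tailVec x i)
        / D.u x ^ 2 + D.L (sq x) * (2 * tailVec x i))) 0 := by
  have hM : HasDerivAt (fun t : ℝ => D.M (sq (x + t • (Pi.single i 1 : Fin (m + 1) → ℝ))))
      (D.M (sq x) * D.L (sq x) * (2 * tailVec x i)) 0 :=
    HasDerivAt.comp_of_eq (h₂ := D.M) 0 (D.M_deriv hm (sq_nonneg' x)) (line_deriv_sq x i) (by simp)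
  refine (((D.line_deriv_u x i).fun_pow k).fun_mul hM).congr_deriv ?_
  have hu := D.u_pos x
  simp only [zero_smul, add_zero]
  rcases k with _ | k
  · simp; ring
  · simp only [Nat.add_sub_cancel, pow_succ]
    push_cast
    field_simp

lemma partial_weight (hm : 1 ≤ m) (i : Fin (m + 1)) :
    partialDeriv (affineWeight D.u) i = fun x => D.u x ^ m * D.M (sq x) *
      (((m : ℝ) + 2) * (x 0 * ev0 i + D.P (sq x) * tailVec x i)
        + 2 * (x 0 ^ 2 + D.G (sq x) ^ 2) * D.L (sq x) * tailVec x i) := by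
  funext x
  rw [D.weight_eq]
  refine partialDeriv_of_line ?_ ((D.line_deriv_weight hm (m + 2) x i).congr_deriv ?_)
  · exact ((D.u_smooth.differentiable (by simp) x).fun_pow _).mul
      (DifferentiableAt.comp (g := D.M) x (D.M_deriv hm (sq_nonneg' x)).differentiableAt
        ((contDiff_sq.differentiable (by simp)) x))
  · have hu := D.u_pos x
    rw [← D.u_sq x]
    push_cast
    field_simp
    ring

lemma hessian_weight (hm : 1 ≤ m) (x : Fin (m + 1) → ℝ) (i j : Fin (m + 1)) :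
    partialDeriv (partialDeriv (affineWeight D.u) i) j x = D.u x ^ m * D.M (sq x) *
      rankTwo x (((m : ℝ) + 2) * D.P (sq x) + 2 * (x 0 ^ 2 + D.G (sq x) ^ 2) * D.L (sq x))
        (((m : ℝ) + 2) * (1 - D.P (sq x)) - 2 * (x 0 ^ 2 + D.G (sq x) ^ 2) * D.L (sq x)
          + (m : ℝ) * x 0 ^ 2 * ((m : ℝ) + 2) / (x 0 ^ 2 + D.G (sq x) ^ 2))
        (((m : ℝ) + 2) * x 0 * ((m : ℝ) * D.P (sq x) / (x 0 ^ 2 + D.G (sq x) ^ 2)
          + 2 * D.L (sq x)))
        (((m : ℝ) + 2) * x 0 * ((m : ℝ) * D.P (sq x) / (x 0 ^ 2 + D.G (sq x) ^ 2)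
          + 2 * D.L (sq x)))
        ((((m : ℝ) + 2) * D.P (sq x) + 2 * (x 0 ^ 2 + D.G (sq x) ^ 2) * D.L (sq x))
            * ((m : ℝ) * D.P (sq x) / (x 0 ^ 2 + D.G (sq x) ^ 2) + 2 * D.L (sq x))
          + ((m : ℝ) + 2) * (D.P (sq x) * (D.A (sq x) + D.B (sq x)))
          + 4 * D.L (sq x) * D.P (sq x)
          + 4 * (x 0 ^ 2 + D.G (sq x) ^ 2) * D.L' (sq x)) i j := by
  have hs := sq_nonneg' x
  rw [D.partial_weight hm i]
  have hP : DifferentiableAt ℝ (fun y => D.P (sq y)) x :=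
    DifferentiableAt.comp x (D.P_deriv hs).differentiableAt
      ((contDiff_sq.differentiable (by simp)) x)
  have hG : DifferentiableAt ℝ (fun y => D.G (sq y)) x :=
    DifferentiableAt.comp x (D.G_deriv _ hs).differentiableAt
      ((contDiff_sq.differentiable (by simp)) x)
  have hL : DifferentiableAt ℝ (fun y => D.L (sq y)) x :=
    DifferentiableAt.comp x (D.L_deriv hm hs).differentiableAt
      ((contDiff_sq.differentiable (by simp)) x)
  have h0 : DifferentiableAt ℝ (fun y : Fin (m + 1) → ℝ => y 0) x := differentiableAt_apply 0 x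
  refine partialDeriv_of_line ?_ ?_
  · exact (D.weight_diff hm x).mul ((((h0.mul_const _).add (hP.mul (differentiable_tail i x))).const_mul _).add
      (((((h0.fun_pow 2).add (hG.fun_pow 2)).const_mul 2).mul hL).mul (differentiable_tail i x)))
  · have dP : HasDerivAt (fun t : ℝ => D.P (sq (x + t • (Pi.single j 1 : Fin (m + 1) → ℝ))))
        (D.G (sq x) ^ 2 * D.A (sq x) * (D.A (sq x) + D.B (sq x)) / 2 * (2 * tailVec x j)) 0 :=
      HasDerivAt.comp_of_eq 0 (D.P_deriv hs) (line_deriv_sq x j) (by simp)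
    have dG : HasDerivAt (fun t : ℝ => D.G (sq (x + t • (Pi.single j 1 : Fin (m + 1) → ℝ))))
        (D.G (sq x) * D.A (sq x) / 2 * (2 * tailVec x j)) 0 :=
      HasDerivAt.comp_of_eq 0 (D.G_deriv _ hs) (line_deriv_sq x j) (by simp)
    have dL : HasDerivAt (fun t : ℝ => D.L (sq (x + t • (Pi.single j 1 : Fin (m + 1) → ℝ))))
        (D.L' (sq x) * (2 * tailVec x j)) 0 :=
      HasDerivAt.comp_of_eq 0 (D.L_deriv hm hs) (line_deriv_sq x j) (by simp)
    have dX := ((((line_deriv_fst x j).mul_const (ev0 i)).fun_add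
      (dP.fun_mul (line_deriv_tail x j i))).const_mul ((m : ℝ) + 2)).fun_add
      ((((((line_deriv_fst x j).fun_pow 2).fun_add (dG.fun_pow 2)).const_mul 2).fun_mul dL).fun_mul
        (line_deriv_tail x j i))
    refine ((D.line_deriv_weight hm m x j).fun_mul dX).congr_deriv ?_
    have hU := D.rad2_pos x
    rw [rankTwo_apply, D.u_sq x]
    simp only [zero_smul, add_zero, eq_comm (a := j) (b := i), P]
    push_cast
    field_simp
    ring

theorem affineMaximal (hm : 1 ≤ m) : IsAffineMaximal D.u := by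
  intro x
  have hs := sq_nonneg' x
  have hu := D.u_pos x
  have hG := D.G_pos _ hs
  have hA := D.A_pos _ hs
  have hQ := D.Q_pos _ hs
  have hU := D.rad2_pos x
  have hD := D.den_pos hm hs
  set z := x 0 with hzd
  set G := D.G (sq x) with hGd
  set A := D.A (sq x) with hAd
  set B := D.B (sq x) with hBd
  have hinv : (hessianMatrix D.u x)⁻¹ = rankTwo x (D.u x / (G ^ 2 * A))
      (D.u x * ((z ^ 2 + G ^ 2) / G ^ 2 + z ^ 2 * sq x * A / (G ^ 2 * (1 + sq x * B))
        - 1 / (G ^ 2 * A)))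
      (D.u x * z / (G ^ 2 * (1 + sq x * B))) (D.u x * z / (G ^ 2 * (1 + sq x * B)))
      (-(D.u x * B) / (G ^ 2 * A * (1 + sq x * B))) := by
    refine Matrix.inv_eq_right_inv ?_
    rw [D.hessian_u, rankTwo_mul]
    have h1 : rankTwo x 1 0 0 0 0 = (1 : Matrix (Fin (m + 1)) (Fin (m + 1)) ℝ) := by simp [rankTwo]
    rw [← h1]
    simp only [P, ← hzd, ← hGd, ← hAd, ← hBd]
    obtain ⟨Q, hQd⟩ : ∃ Q, Q = 1 + sq x * B := ⟨_, rfl⟩
    have hQ' : Q ≠ 0 := hQd ▸ hQ.ne'
    rw [← hQd]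
    congr 1 <;> field_simp <;> subst hQd <;> ring
  calc ∑ i, ∑ j, (hessianMatrix D.u x).det * (hessianMatrix D.u x)⁻¹ i j *
      partialDeriv (partialDeriv (affineWeight D.u) j) i x
      = (hessianMatrix D.u x).det * (D.u x ^ m * D.M (sq x)) * 0 := ?_
    _ = 0 := mul_zero _
  rw [hinv]
  simp only [D.hessian_weight hm]
  have e : ∀ (a c : ℝ) (p q : Matrix (Fin (m + 1)) (Fin (m + 1)) ℝ),
      ∑ i, ∑ j, a * p i j * (c * q j i) = a * c * ∑ i, ∑ j, p i j * q j i := by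
    intro a c p q
    rw [Finset.mul_sum]
    refine Finset.sum_congr rfl fun i _ => ?_
    rw [Finset.mul_sum]
    exact Finset.sum_congr rfl fun j _ => by ring
  rw [e]
  congr 1
  rw [sum_sum_mk]
  refine (trace_identity (m : ℝ) (D.u x) z G A B (sq x) (D.L (sq x)) (D.L' (sq x))
    hG.ne' hA.ne' hQ.ne' hU.ne').trans ?_
  have hk := key_identity (m : ℝ) A B (sq x) (by simpa [add_sub_cancel_right] using hD.ne')
  simp only [L, L', add_sub_cancel_right] at hk ⊢
  rw [hk, mul_zero]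

end Data

end

end Vale.Agent.P252
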