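import Mathlib

/-!
Power series solution near `s = 0` of the reduced affine maximal system
`A' = A (B - A) / 2`, `(s B)' = (1 + s B) R / 2`,
`R = A (N + 2) (1 + 2 s B) / (N - 1 + 2 s A) - (N - 1) B + A`.
-/

namespace Vale.Agent.P252

open Finset Topology
open scoped ContDiff

noncomputable section

/-- Cauchy product of coefficient sequences. -/
def conv (f g : ℕ → ℝ) (n : ℕ) : ℝ := ∑ p ∈ antidiagonal n, f p.1 * g p.2

/-- Multiplication by `s` on coefficient sequences. -/
def sh (f : ℕ → ℝ) : ℕ → ℝ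
  | 0 => 0
  | j + 1 => f j

/-- The radius used. -/
def rad : ℝ := 1 / 1000

/-- Weighted partial `ℓ¹` norm. -/
def psum (f : ℕ → ℝ) (j : ℕ) : ℝ := ∑ i ∈ range j, |f i| * rad ^ i

/-- Evaluation of a coefficient sequence. -/
def ev (f : ℕ → ℝ) (s : ℝ) : ℝ := ∑' i, f i * s ^ i

lemma rad_pos : 0 < rad := by norm_num [rad]

lemma psum_nonneg (f : ℕ → ℝ) (j : ℕ) : 0 ≤ psum f j :=
  Finset.sum_nonneg fun i _ => mul_nonneg (abs_nonneg _) (pow_nonneg rad_pos.le _)

lemma psum_mono (f : ℕ → ℝ) {i j : ℕ} (h : i ≤ j) : psum f i ≤ psum f j :=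
  Finset.sum_le_sum_of_subset_of_nonneg (by simpa using h)
    fun k _ _ => mul_nonneg (abs_nonneg _) (pow_nonneg rad_pos.le _)

lemma psum_add (f g : ℕ → ℝ) (j : ℕ) : psum (f + g) j ≤ psum f j + psum g j := by
  unfold psum
  rw [← Finset.sum_add_distrib]
  refine Finset.sum_le_sum fun i _ => ?_
  rw [← add_mul]
  exact mul_le_mul_of_nonneg_right (by simpa using abs_add_le (f i) (g i))
    (pow_nonneg rad_pos.le _)

lemma psum_sub (f g : ℕ → ℝ) (j : ℕ) : psum (f - g) j ≤ psum f j + psum g j := by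
  unfold psum
  rw [← Finset.sum_add_distrib]
  refine Finset.sum_le_sum fun i _ => ?_
  rw [← add_mul]
  exact mul_le_mul_of_nonneg_right (by simpa using abs_sub (f i) (g i))
    (pow_nonneg rad_pos.le _)

lemma psum_smul (c : ℝ) (f : ℕ → ℝ) (j : ℕ) : psum (c • f) j = |c| * psum f j := by
  simp [psum, Finset.mul_sum, abs_mul, mul_assoc]

lemma psum_sh (f : ℕ → ℝ) (j : ℕ) : psum (sh f) (j + 1) = rad * psum f j := by
  unfold psum
  rw [Finset.sum_range_succ']
  simp only [sh, abs_zero, zero_mul, add_zero, Finset.mul_sum, pow_succ]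
  refine Finset.sum_congr rfl fun i _ => ?_
  ring

lemma psum_conv (f g : ℕ → ℝ) (j : ℕ) : psum (conv f g) j ≤ psum f j * psum g j := by
  unfold psum
  set F := fun i => |f i| * rad ^ i
  set G := fun i => |g i| * rad ^ i
  have h1 : ∀ n, |conv f g n| * rad ^ n ≤ ∑ p ∈ antidiagonal n, F p.1 * G p.2 := by
    intro n
    refine le_trans (mul_le_mul_of_nonneg_right (Finset.abs_sum_le_sum_abs _ _)
      (pow_nonneg rad_pos.le _)) ?_
    rw [Finset.sum_mul]
    refine le_of_eq (Finset.sum_congr rfl fun p hp => ?_)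
    rw [HasAntidiagonal.mem_antidiagonal] at hp
    simp only [F, G, abs_mul, ← hp, pow_add]
    ring
  refine le_trans (Finset.sum_le_sum fun n _ => h1 n) ?_
  rw [Finset.sum_mul_sum, ← Finset.sum_product']
  rw [← Finset.sum_biUnion]
  · refine Finset.sum_le_sum_of_subset_of_nonneg ?_ fun p _ _ => ?_
    · intro p hp
      simp only [mem_biUnion, mem_range, HasAntidiagonal.mem_antidiagonal] at hp
      obtain ⟨n, hn, hp⟩ := hp
      simp only [mem_product, mem_range]
      omega
    · exact mul_nonneg (mul_nonneg (abs_nonneg _) (pow_nonneg rad_pos.le _))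
        (mul_nonneg (abs_nonneg _) (pow_nonneg rad_pos.le _))
  · intro a _ b _ hab
    simp only [Function.onFun, Finset.disjoint_left, HasAntidiagonal.mem_antidiagonal]
    intro p hp hp'
    exact hab (hp.symm.trans hp')

/-- The auxiliary sequence `T = a + (N + 2) (a d + 2 s b a d)`. -/
def tseq (N : ℝ) (a b d : ℕ → ℝ) : ℕ → ℝ :=
  a + (N + 2) • (conv a d + (2 : ℝ) • sh (conv b (conv a d)))

/-- The coefficient recursion. -/
def step (N : ℝ) (x : (ℕ → ℝ) × (ℕ → ℝ) × (ℕ → ℝ)) : (ℕ → ℝ) × (ℕ → ℝ) × (ℕ → ℝ) :=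
  let a := x.1
  let b := x.2.1
  let d := x.2.2
  let a' : ℕ → ℝ := fun j => match j with
    | 0 => 1
    | i + 1 => conv a (b - a) i / (2 * (i + 1))
  let d' : ℕ → ℝ := fun j => match j with
    | 0 => 1 / (N - 1)
    | i + 1 => -2 * conv a d i / (N - 1)
  (a', fun j => ((a' + (N + 2) • (conv a' d' + (2 : ℝ) • sh (conv b (conv a d)))) j
      + sh (conv b (tseq N a b d) - (N - 1) • conv b b) j) / (2 * j + N + 1), d')

/-- Agreement below `j`. -/
def Agree (j : ℕ) (f g : ℕ → ℝ) : Prop := ∀ i < j, f i = g i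

lemma Agree.conv {j : ℕ} {f f' g g' : ℕ → ℝ} (h : Agree j f f') (h' : Agree j g g') :
    Agree j (Vale.Agent.P252.conv f g) (Vale.Agent.P252.conv f' g') := by
  intro i hi
  refine Finset.sum_congr rfl fun p hp => ?_
  rw [HasAntidiagonal.mem_antidiagonal] at hp
  rw [h p.1 (by omega), h' p.2 (by omega)]

lemma Agree.sub {j : ℕ} {f f' g g' : ℕ → ℝ} (h : Agree j f f') (h' : Agree j g g') :
    Agree j (f - g) (f' - g') := fun i hi => by simp [h i hi, h' i hi]

lemma Agree.add {j : ℕ} {f f' g g' : ℕ → ℝ} (h : Agree j f f') (h' : Agree j g g') :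
    Agree j (f + g) (f' + g') := fun i hi => by simp [h i hi, h' i hi]

lemma Agree.smul {j : ℕ} {f f' : ℕ → ℝ} (c : ℝ) (h : Agree j f f') :
    Agree j (c • f) (c • f') := fun i hi => by simp [h i hi]

lemma Agree.sh {j : ℕ} {f f' : ℕ → ℝ} (h : Agree j f f') :
    Agree (j + 1) (Vale.Agent.P252.sh f) (Vale.Agent.P252.sh f') := by
  intro i hi
  cases i with
  | zero => rfl
  | succ i => exact h i (by omega)

lemma Agree.mono {i j : ℕ} {f f' : ℕ → ℝ} (h : Agree j f f') (hij : i ≤ j) : Agree i f f' :=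
  fun k hk => h k (lt_of_lt_of_le hk hij)

lemma Agree.symm {j : ℕ} {f f' : ℕ → ℝ} (h : Agree j f f') : Agree j f' f :=
  fun i hi => (h i hi).symm

lemma step_agree (N : ℝ) {j : ℕ} {x y : (ℕ → ℝ) × (ℕ → ℝ) × (ℕ → ℝ)}
    (ha : Agree j x.1 y.1) (hb : Agree j x.2.1 y.2.1) (hd : Agree j x.2.2 y.2.2) :
    Agree (j + 1) (step N x).1 (step N y).1 ∧ Agree (j + 1) (step N x).2.1 (step N y).2.1 ∧
      Agree (j + 1) (step N x).2.2 (step N y).2.2 := by
  have h1 : Agree (j + 1) (step N x).1 (step N y).1 := by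
    intro i hi
    cases i with
    | zero => rfl
    | succ i =>
      simp only [step]
      rw [(ha.conv (hb.sub ha)) i (by omega)]
  have h3 : Agree (j + 1) (step N x).2.2 (step N y).2.2 := by
    intro i hi
    cases i with
    | zero => rfl
    | succ i =>
      simp only [step]
      rw [(ha.conv hd) i (by omega)]
  refine ⟨h1, ?_, h3⟩
  intro i hi
  have e1 : Agree (j + 1) ((step N x).1 + (N + 2) • (conv (step N x).1 (step N x).2.2
      + (2 : ℝ) • sh (conv x.2.1 (conv x.1 x.2.2))))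
      ((step N y).1 + (N + 2) • (conv (step N y).1 (step N y).2.2
      + (2 : ℝ) • sh (conv y.2.1 (conv y.1 y.2.2)))) :=
    h1.add (Agree.smul _ ((h1.conv h3).add (Agree.smul _ ((hb.conv (ha.conv hd)).sh))))
  have e2 : Agree (j + 1) (sh (conv x.2.1 (tseq N x.1 x.2.1 x.2.2) - (N - 1) • conv x.2.1 x.2.1))
      (sh (conv y.2.1 (tseq N y.1 y.2.1 y.2.2) - (N - 1) • conv y.2.1 y.2.1)) := by
    refine Agree.sh (Agree.sub (hb.conv ?_) (Agree.smul _ (hb.conv hb)))
    exact ha.add (Agree.smul _ ((ha.conv hd).add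
      (Agree.smul _ ((hb.conv (ha.conv hd)).sh.mono (Nat.le_succ j)))))
  have a1 := e1 i hi
  have a2 := e2 i hi
  simp only [step] at a1 a2 ⊢
  rw [a1, a2]

/-- Iterates of the recursion. -/
def iter (N : ℝ) : ℕ → (ℕ → ℝ) × (ℕ → ℝ) × (ℕ → ℝ)
  | 0 => (0, 0, 0)
  | k + 1 => step N (iter N k)

lemma iter_agree (N : ℝ) : ∀ (j k : ℕ), j ≤ k → Agree j (iter N j).1 (iter N k).1 ∧
    Agree j (iter N j).2.1 (iter N k).2.1 ∧ Agree j (iter N j).2.2 (iter N k).2.2
  | 0, _, _ => ⟨fun i hi => absurd hi (Nat.not_lt_zero i), fun i hi => absurd hi (Nat.not_lt_zero i),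
      fun i hi => absurd hi (Nat.not_lt_zero i)⟩
  | j + 1, 0, h => absurd h (Nat.not_succ_le_zero j)
  | j + 1, k + 1, h => by
      obtain ⟨h1, h2, h3⟩ := iter_agree N j k (by omega)
      exact step_agree N h1 h2 h3

/-- The coefficients of `A`. -/
def ca (N : ℝ) (j : ℕ) : ℝ := (iter N (j + 1)).1 j
/-- The coefficients of `B`. -/
def cb (N : ℝ) (j : ℕ) : ℝ := (iter N (j + 1)).2.1 j
/-- The coefficients of `1 / (N - 1 + 2 s A)`. -/
def cd (N : ℝ) (j : ℕ) : ℝ := (iter N (j + 1)).2.2 j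

lemma coeff_agree (N : ℝ) (j : ℕ) : Agree j (ca N) (iter N j).1 ∧
    Agree j (cb N) (iter N j).2.1 ∧ Agree j (cd N) (iter N j).2.2 := by
  refine ⟨?_, ?_, ?_⟩ <;> intro i hi
  · exact (iter_agree N (i + 1) j (by omega)).1 i (by omega)
  · exact (iter_agree N (i + 1) j (by omega)).2.1 i (by omega)
  · exact (iter_agree N (i + 1) j (by omega)).2.2 i (by omega)

lemma coeff_fixed (N : ℝ) : step N (ca N, cb N, cd N) = (ca N, cb N, cd N) := by
  have key : ∀ j, Agree (j + 1) (step N (ca N, cb N, cd N)).1 (ca N) ∧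
      Agree (j + 1) (step N (ca N, cb N, cd N)).2.1 (cb N) ∧
      Agree (j + 1) (step N (ca N, cb N, cd N)).2.2 (cd N) := by
    intro j
    obtain ⟨h1, h2, h3⟩ := coeff_agree N j
    obtain ⟨k1, k2, k3⟩ := step_agree N (x := (ca N, cb N, cd N)) (y := iter N j) h1 h2 h3
    obtain ⟨g1, g2, g3⟩ := coeff_agree N (j + 1)
    exact ⟨fun i hi => (k1 i hi).trans (g1 i hi).symm, fun i hi => (k2 i hi).trans (g2 i hi).symm,
      fun i hi => (k3 i hi).trans (g3 i hi).symm⟩
  refine Prod.ext ?_ (Prod.ext ?_ ?_) <;> funext i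
  · exact (key i).1 i (by omega)
  · exact (key i).2.1 i (by omega)
  · exact (key i).2.2 i (by omega)

lemma ca_zero (N : ℝ) : ca N 0 = 1 := by simp [ca, iter, step]

lemma ca_succ (N : ℝ) (i : ℕ) :
    ca N (i + 1) = conv (ca N) (cb N - ca N) i / (2 * (i + 1)) := by
  have := congrArg (fun x => x.1 (i + 1)) (coeff_fixed N)
  simpa [step] using this.symm

lemma cd_zero (N : ℝ) : cd N 0 = 1 / (N - 1) := by simp [cd, iter, step]

lemma cd_succ (N : ℝ) (i : ℕ) :
    cd N (i + 1) = -2 * conv (ca N) (cd N) i / (N - 1) := by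
  have := congrArg (fun x => x.2.2 (i + 1)) (coeff_fixed N)
  simpa [step] using this.symm

lemma cb_eq (N : ℝ) (j : ℕ) :
    cb N j = (tseq N (ca N) (cb N) (cd N) j + sh (conv (cb N) (tseq N (ca N) (cb N) (cd N))
      - (N - 1) • conv (cb N) (cb N)) j) / (2 * j + N + 1) := by
  have h := coeff_fixed N
  have h1 : (step N (ca N, cb N, cd N)).1 = ca N := congrArg (fun x => x.1) h
  have h3 : (step N (ca N, cb N, cd N)).2.2 = cd N := congrArg (fun x => x.2.2) h
  have h2 := congrArg (fun x => x.2.1 j) h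
  simp only [step] at h1 h2 h3
  rw [h1, h3] at h2
  exact h2.symm

lemma coeff_bounds {N : ℝ} (hN : 10 ≤ N) : ∀ j, psum (ca N) j ≤ 2 ∧ psum (cb N) j ≤ 14 ∧
    psum (cd N) j ≤ 1 := by
  intro j
  induction j with
  | zero => simp [psum]
  | succ j ih =>
    obtain ⟨iha, ihb, ihd⟩ := ih
    have hr := rad_pos
    have hr' : rad = 1 / 1000 := rfl
    have hN1 : 0 < N - 1 := by linarith
    have hN3 : 0 < N + 1 := by linarith
    have na := psum_nonneg (ca N) j
    have nb := psum_nonneg (cb N) j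
    have nd := psum_nonneg (cd N) j
    have ha : psum (ca N) (j + 1) ≤ 2 := by
      have e : psum (ca N) (j + 1) ≤ 1 + rad / 2 * psum (conv (ca N) (cb N - ca N)) j := by
        unfold psum
        rw [Finset.sum_range_succ', ca_zero, Finset.mul_sum]
        simp only [abs_one, pow_zero, mul_one]
        rw [add_comm]
        refine add_le_add le_rfl (Finset.sum_le_sum fun i _ => ?_)
        rw [ca_succ, abs_div, pow_succ]
        have h2 : (2 : ℝ) ≤ |2 * ((i : ℝ) + 1)| := by
          rw [abs_of_pos (by positivity)]; nlinarith [Nat.cast_nonneg (α := ℝ) i]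
        calc |conv (ca N) (cb N - ca N) i| / |2 * ((i : ℝ) + 1)| * (rad ^ i * rad)
            ≤ |conv (ca N) (cb N - ca N) i| / 2 * (rad ^ i * rad) := by gcongr
          _ = rad / 2 * (|conv (ca N) (cb N - ca N) i| * rad ^ i) := by ring
      have e2 : psum (conv (ca N) (cb N - ca N)) j ≤ 2 * (14 + 2) := by
        refine le_trans (psum_conv _ _ _) ?_
        exact mul_le_mul iha ((psum_sub _ _ _).trans (add_le_add ihb iha)) (psum_nonneg _ _)
          (by norm_num)
      rw [hr'] at e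
      linarith [psum_nonneg (conv (ca N) (cb N - ca N)) j]
    have hd : psum (cd N) (j + 1) ≤ 1 := by
      have e : psum (cd N) (j + 1) = (1 + 2 * rad * psum (conv (ca N) (cd N)) j) / (N - 1) := by
        unfold psum
        rw [Finset.sum_range_succ', cd_zero, add_div, Finset.mul_sum, Finset.sum_div]
        rw [abs_of_pos (by positivity), pow_zero, mul_one, add_comm]
        refine congrArg₂ (· + ·) rfl (Finset.sum_congr rfl fun i _ => ?_)
        rw [cd_succ, abs_div, abs_mul, abs_of_pos hN1, pow_succ]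
        norm_num
        ring
      have e2 : psum (conv (ca N) (cd N)) j ≤ 2 * 1 :=
        le_trans (psum_conv _ _ _) (mul_le_mul iha ihd nd (by norm_num))
      rw [e, div_le_one hN1, hr']
      linarith
    refine ⟨ha, ?_, hd⟩
    set T := tseq N (ca N) (cb N) (cd N) with hT
    have e4 : psum T (j + 1) ≤ 6 * N + 14 := by
      refine le_trans (psum_add _ _ _) ?_
      rw [psum_smul, abs_of_pos (by linarith : (0:ℝ) < N + 2)]
      have q1 : psum (conv (ca N) (cd N)) (j + 1) ≤ 2 * 1 :=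
        le_trans (psum_conv _ _ _) (mul_le_mul ha hd (psum_nonneg _ _) (by norm_num))
      have q2 : psum ((2:ℝ) • sh (conv (cb N) (conv (ca N) (cd N)))) (j + 1)
          ≤ 2 * (rad * (14 * (2 * 1))) := by
        rw [psum_smul, psum_sh, abs_two]
        gcongr
        refine le_trans (psum_conv _ _ _) ?_
        exact mul_le_mul ihb (le_trans (psum_conv _ _ _) (mul_le_mul iha ihd nd (by norm_num)))
          (psum_nonneg _ _) (by norm_num)
      have q3 := psum_add (conv (ca N) (cd N)) ((2:ℝ) • sh (conv (cb N) (conv (ca N) (cd N)))) (j + 1)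
      rw [hr'] at q2
      have q4 : psum (conv (ca N) (cd N) + (2:ℝ) • sh (conv (cb N) (conv (ca N) (cd N)))) (j + 1)
          ≤ 3 := by linarith
      nlinarith [q4, ha]
    have e : psum (cb N) (j + 1) ≤ (psum T (j + 1) +
        rad * psum (conv (cb N) T - (N - 1) • conv (cb N) (cb N)) j) / (N + 1) := by
      rw [← psum_sh]
      unfold psum
      rw [← Finset.sum_add_distrib, Finset.sum_div]
      refine Finset.sum_le_sum fun i _ => ?_
      rw [cb_eq N i, ← hT, abs_div, ← add_mul]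
      have h2 : N + 1 ≤ |2 * (i : ℝ) + N + 1| := by
        rw [abs_of_pos (by positivity)]; nlinarith [Nat.cast_nonneg (α := ℝ) i]
      calc |T i + sh (conv (cb N) T - (N - 1) • conv (cb N) (cb N)) i| / |2 * (i : ℝ) + N + 1|
            * rad ^ i
          ≤ |T i + sh (conv (cb N) T - (N - 1) • conv (cb N) (cb N)) i| / (N + 1) * rad ^ i := by
            gcongr
        _ ≤ (|T i| + |sh (conv (cb N) T - (N - 1) • conv (cb N) (cb N)) i|) / (N + 1) * rad ^ i := by
            gcongr; exact abs_add_le _ _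
        _ = _ := by ring
    have e5 : psum (conv (cb N) T - (N - 1) • conv (cb N) (cb N)) j
        ≤ 14 * (6 * N + 14) + (N - 1) * (14 * 14) := by
      refine le_trans (psum_sub _ _ _) ?_
      rw [psum_smul, abs_of_pos hN1]
      refine add_le_add (le_trans (psum_conv _ _ _) ?_)
        (mul_le_mul_of_nonneg_left (le_trans (psum_conv _ _ _) ?_) hN1.le)
      · exact mul_le_mul ihb ((psum_mono T (Nat.le_succ j)).trans e4) (psum_nonneg _ _) (by norm_num)
      · exact mul_le_mul ihb ihb nb (by norm_num)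
    refine le_trans e ?_
    rw [div_le_iff₀ hN3, hr']
    nlinarith

/-- Bounded weighted sums: summability on the closed disc. -/
def Bdd (f : ℕ → ℝ) : Prop := Summable fun i => |f i| * rad ^ i

lemma bdd_of_psum {f : ℕ → ℝ} {M : ℝ} (h : ∀ j, psum f j ≤ M) : Bdd f :=
  summable_of_sum_range_le (fun i => mul_nonneg (abs_nonneg _) (pow_nonneg rad_pos.le _)) h

lemma Bdd.add {f g : ℕ → ℝ} (hf : Bdd f) (hg : Bdd g) : Bdd (f + g) := by
  refine bdd_of_psum (M := (∑' i, |f i| * rad ^ i) + ∑' i, |g i| * rad ^ i) fun j => ?_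
  refine (psum_add f g j).trans (add_le_add ?_ ?_) <;>
    [refine hf.sum_le_tsum _ ?_; refine hg.sum_le_tsum _ ?_] <;>
    exact fun i _ => mul_nonneg (abs_nonneg _) (pow_nonneg rad_pos.le _)

lemma Bdd.smul {f : ℕ → ℝ} (hf : Bdd f) (c : ℝ) : Bdd (c • f) := by
  have := hf.mul_left |c|
  simpa [Bdd, abs_mul, mul_assoc] using this

lemma Bdd.sub {f g : ℕ → ℝ} (hf : Bdd f) (hg : Bdd g) : Bdd (f - g) := by
  simpa [sub_eq_add_neg] using hf.add (hg.smul (-1))

lemma Bdd.conv {f g : ℕ → ℝ} (hf : Bdd f) (hg : Bdd g) : Bdd (Vale.Agent.P252.conv f g) := by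
  refine bdd_of_psum (M := (∑' i, |f i| * rad ^ i) * ∑' i, |g i| * rad ^ i) fun j => ?_
  have hnn : ∀ (h : ℕ → ℝ) (i : ℕ), 0 ≤ |h i| * rad ^ i :=
    fun h i => mul_nonneg (abs_nonneg _) (pow_nonneg rad_pos.le _)
  exact (psum_conv f g j).trans (mul_le_mul (hf.sum_le_tsum _ fun i _ => hnn f i)
    (hg.sum_le_tsum _ fun i _ => hnn g i) (psum_nonneg _ _) (tsum_nonneg (hnn f)))

lemma Bdd.sh {f : ℕ → ℝ} (hf : Bdd f) : Bdd (Vale.Agent.P252.sh f) := by
  unfold Bdd
  rw [← summable_nat_add_iff 1]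
  simpa [Vale.Agent.P252.sh, pow_succ, mul_assoc] using hf.mul_right rad

lemma Bdd.summable_norm {f : ℕ → ℝ} (hf : Bdd f) {s : ℝ} (hs : |s| ≤ rad) :
    Summable fun i => ‖f i * s ^ i‖ := by
  refine Summable.of_nonneg_of_le (fun i => norm_nonneg _) (fun i => ?_) hf
  rw [Real.norm_eq_abs, abs_mul, abs_pow]
  gcongr

lemma Bdd.summable {f : ℕ → ℝ} (hf : Bdd f) {s : ℝ} (hs : |s| ≤ rad) :
    Summable fun i => f i * s ^ i := (hf.summable_norm hs).of_norm

lemma ev_add {f g : ℕ → ℝ} (hf : Bdd f) (hg : Bdd g) {s : ℝ} (hs : |s| ≤ rad) :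
    ev (f + g) s = ev f s + ev g s := by
  simp only [ev, Pi.add_apply, add_mul]
  exact (hf.summable hs).tsum_add (hg.summable hs)

lemma ev_sub {f g : ℕ → ℝ} (hf : Bdd f) (hg : Bdd g) {s : ℝ} (hs : |s| ≤ rad) :
    ev (f - g) s = ev f s - ev g s := by
  simp only [ev, Pi.sub_apply, sub_mul]
  exact (hf.summable hs).tsum_sub (hg.summable hs)

lemma ev_smul (f : ℕ → ℝ) (c s : ℝ) : ev (c • f) s = c * ev f s := by
  simp only [ev, Pi.smul_apply, smul_eq_mul, mul_assoc]
  exact tsum_mul_left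

lemma ev_conv {f g : ℕ → ℝ} (hf : Bdd f) (hg : Bdd g) {s : ℝ} (hs : |s| ≤ rad) :
    ev (conv f g) s = ev f s * ev g s := by
  unfold ev
  rw [tsum_mul_tsum_eq_tsum_sum_antidiagonal_of_summable_norm (hf.summable_norm hs)
    (hg.summable_norm hs)]
  refine tsum_congr fun n => ?_
  rw [conv, Finset.sum_mul]
  refine Finset.sum_congr rfl fun p hp => ?_
  rw [HasAntidiagonal.mem_antidiagonal] at hp
  rw [← hp, pow_add]
  ring

lemma ev_sh {f : ℕ → ℝ} (hf : Bdd f) {s : ℝ} (hs : |s| ≤ rad) : ev (sh f) s = s * ev f s := by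
  unfold ev
  rw [(hf.sh.summable hs).tsum_eq_zero_add, ← tsum_mul_left]
  simp only [sh, zero_mul, zero_add]
  refine tsum_congr fun i => ?_
  ring

lemma ev_analytic {f : ℕ → ℝ} (hf : Bdd f) {s : ℝ} (hs : |s| < rad) : AnalyticAt ℝ (ev f) s := by
  set r : NNReal := ⟨rad, rad_pos.le⟩ with hrdef
  have hrc : (r : ℝ) = rad := rfl
  have hr : (r : ENNReal) ≤ (FormalMultilinearSeries.ofScalars ℝ f).radius := by
    apply FormalMultilinearSeries.le_radius_of_summable_norm
    simpa [Bdd, FormalMultilinearSeries.ofScalars_norm, hrc] using hf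
  have hpos : 0 < (FormalMultilinearSeries.ofScalars ℝ f).radius :=
    lt_of_lt_of_le (ENNReal.coe_pos.mpr (show (0 : NNReal) < r from rad_pos)) hr
  have h := (FormalMultilinearSeries.ofScalars ℝ f).hasFPowerSeriesOnBall hpos
  have he : ev f = (FormalMultilinearSeries.ofScalars ℝ f).sum := by
    funext x
    simp [ev, FormalMultilinearSeries.sum, mul_comm]
  rw [he]
  refine h.analyticAt_of_mem (lt_of_lt_of_le ?_ hr)
  rw [edist_zero_right]
  rw [← ofReal_norm, Real.norm_eq_abs, ← ENNReal.ofReal_coe_nnreal]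
  exact (ENNReal.ofReal_lt_ofReal_iff rad_pos).mpr hs

lemma ev_hasDerivAt {f : ℕ → ℝ} (hf : Bdd f) {s : ℝ} (hs : |s| < rad) :
    HasDerivAt (ev f) (ev (fun i => ((i : ℝ) + 1) * f (i + 1)) s) s := by
  obtain ⟨r, hr1, hr2⟩ := exists_between hs
  have hr0 : 0 ≤ r := le_trans (abs_nonneg s) hr1.le
  set g' : ℕ → ℝ → ℝ := fun i y => f i * ((i : ℝ) * y ^ (i - 1)) with hg'
  set M := ∑' i, |f i| * rad ^ i with hM
  have hle : ∀ i, |f i| * rad ^ i ≤ M := fun i =>
    hf.le_tsum i fun j _ => mul_nonneg (abs_nonneg _) (pow_nonneg rad_pos.le _)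
  have hq : r / rad < 1 := (div_lt_one rad_pos).mpr hr2
  have hu : Summable fun i : ℕ => (M / rad) * ((i : ℝ) * (r / rad) ^ (i - 1)) := by
    refine Summable.mul_left _ ?_
    rw [← summable_nat_add_iff 1]
    simp only [Nat.add_sub_cancel, Nat.cast_add, Nat.cast_one, add_mul, one_mul]
    refine Summable.add ?_ (summable_geometric_of_lt_one (div_nonneg hr0 rad_pos.le) hq)
    simpa using summable_pow_mul_geometric_of_norm_lt_one 1 (show ‖r / rad‖ < 1 by
      rwa [Real.norm_eq_abs, abs_of_nonneg (div_nonneg hr0 rad_pos.le)])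
  have hb : ∀ n y, y ∈ Metric.ball (0:ℝ) r → ‖g' n y‖ ≤ (M / rad) * ((n : ℝ) * (r / rad) ^ (n - 1)) := by
    intro n y hy
    rw [Metric.mem_ball, dist_zero_right, Real.norm_eq_abs] at hy
    rw [hg', Real.norm_eq_abs, abs_mul, abs_mul, abs_pow, Nat.abs_cast]
    rcases Nat.eq_zero_or_pos n with hn | hn
    · simp [hn]
    · obtain ⟨m, rfl⟩ : ∃ m, n = m + 1 := ⟨n - 1, by omega⟩
      simp only [Nat.add_sub_cancel]
      calc |f (m + 1)| * (((m + 1 : ℕ) : ℝ) * |y| ^ m)
          ≤ |f (m + 1)| * (((m + 1 : ℕ) : ℝ) * r ^ m) := by gcongr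
        _ = (|f (m + 1)| * rad ^ (m + 1) / rad) * (((m + 1 : ℕ) : ℝ) * (r / rad) ^ m) := by
            rw [div_pow, pow_succ]
            field_simp [rad_pos.ne', pow_ne_zero m rad_pos.ne']
        _ ≤ (M / rad) * (((m + 1 : ℕ) : ℝ) * (r / rad) ^ m) := by
            have := rad_pos
            refine mul_le_mul_of_nonneg_right ?_ (by positivity)
            exact div_le_div_of_nonneg_right (hle _) rad_pos.le
  have hsmem : s ∈ Metric.ball (0:ℝ) r := by simpa using hr1
  have h := hasDerivAt_tsum_of_isPreconnected hu Metric.isOpen_ball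
    (convex_ball (0:ℝ) r).isPreconnected (g := fun i y => f i * y ^ i) (g' := g')
    (fun n y _ => (hasDerivAt_pow n y).const_mul (f n)) hb hsmem (hf.summable hs.le) hsmem
  convert! h using 1
  unfold ev
  have hsum : Summable fun i => g' i s := Summable.of_norm_bounded hu fun i => hb i s hsmem
  rw [hsum.tsum_eq_zero_add]
  simp only [hg', Nat.cast_zero, zero_mul, mul_zero, zero_add, Nat.add_sub_cancel]
  refine tsum_congr fun i => ?_
  push_cast
  ring

/-- Output of the local analysis. -/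
theorem local_solution {N : ℝ} (hN : 10 ≤ N) :
    ∃ A B : ℝ → ℝ, (∀ s, |s| < rad → ContDiffAt ℝ ∞ A s ∧ ContDiffAt ℝ ∞ B s) ∧
      (∀ s, |s| < rad → 0 < A s ∧ A s ≤ 2 ∧ |B s| ≤ 14 ∧
        HasDerivAt A (A s * (B s - A s) / 2) s ∧
        HasDerivAt (fun y => y * B y) ((1 + s * B s) *
          (A s * (N + 2) * (1 + 2 * (s * B s)) / (N - 1 + 2 * (s * A s))
            - (N - 1) * B s + A s) / 2) s) ∧
      A 0 = 1 ∧ 0 < B 0 := by
  set a := ca N
  set b := cb N
  set d := cd N
  set T := tseq N a b d with hT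
  have ha : Bdd a := bdd_of_psum fun j => (coeff_bounds hN j).1
  have hb : Bdd b := bdd_of_psum fun j => (coeff_bounds hN j).2.1
  have hd : Bdd d := bdd_of_psum fun j => (coeff_bounds hN j).2.2
  have hTb : Bdd T :=
    ha.add ((((ha.conv hd)).add ((hb.conv (ha.conv hd)).sh.smul 2)).smul (N + 2))
  have habs : ∀ {f : ℕ → ℝ} {M : ℝ} (s : ℝ), Bdd f → |s| ≤ rad → (∀ j, psum f j ≤ M) →
      |ev f s| ≤ M := by
    intro f M s hf hs hM
    refine le_trans (le_of_eq (Real.norm_eq_abs _).symm) (le_trans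
      (norm_tsum_le_tsum_norm (hf.summable_norm hs)) ?_)
    refine Real.tsum_le_of_sum_range_le (fun i => norm_nonneg _) fun j => le_trans ?_ (hM j)
    refine Finset.sum_le_sum fun i _ => ?_
    rw [Real.norm_eq_abs, abs_mul, abs_pow]
    gcongr
  have hA0 : ev a 0 = 1 := by
    unfold ev
    rw [tsum_eq_single 0]
    · simp [a, ca_zero]
    · intro i hi; simp [hi]
  have hB0 : ev b 0 = b 0 := by
    unfold ev
    rw [tsum_eq_single 0]
    · simp
    · intro i hi; simp [hi]
  refine ⟨ev a, ev b, fun s hs => ⟨(ev_analytic ha hs).contDiffAt, (ev_analytic hb hs).contDiffAt⟩,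
    fun s hs => ?_, hA0, ?_⟩
  swap
  · rw [hB0]
    show 0 < cb N 0
    rw [cb_eq]
    simp only [tseq, sh, conv, Pi.add_apply, Pi.smul_apply, smul_eq_mul,
      Finset.Nat.antidiagonal_zero, Finset.sum_singleton, ca_zero, cd_zero, Nat.cast_zero]
    have : 0 < 1 / (N - 1) := by have : 0 < N - 1 := (by linarith); positivity
    apply div_pos _ (by linarith)
    nlinarith
  have hs' := hs.le
  -- derivative of `A`
  have dA : HasDerivAt (ev a) (ev a s * (ev b s - ev a s) / 2) s := by
    have h := ev_hasDerivAt ha hs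
    have e : (fun i : ℕ => ((i : ℝ) + 1) * a (i + 1)) = (1 / 2 : ℝ) • conv a (b - a) := by
      funext i
      simp only [a, b, ca_succ, Pi.smul_apply, smul_eq_mul]
      field_simp
    rw [e, ev_smul, ev_conv ha (hb.sub ha) hs', ev_sub hb ha hs'] at h
    convert h using 1
    ring
  -- sharper lower bound
  have hAlow : 0 < ev a s := by
    have hshift : ∀ j, psum (a - fun i => if i = 0 then 1 else 0) j ≤ 1 / 2 := by
      intro j
      cases j with
      | zero => simp [psum]
      | succ j =>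
        unfold psum
        rw [Finset.sum_range_succ']
        simp only [Pi.sub_apply, a, ca_zero, Nat.succ_ne_zero, if_false, sub_zero, if_true,
          sub_self, abs_zero, zero_mul, add_zero]
        have e2 : psum (conv (ca N) (cb N - ca N)) j ≤ 2 * (14 + 2) :=
          le_trans (psum_conv _ _ _) (mul_le_mul (coeff_bounds hN j).1
            ((psum_sub _ _ _).trans (add_le_add (coeff_bounds hN j).2.1 (coeff_bounds hN j).1))
            (psum_nonneg _ _) (by norm_num))
        refine le_trans (b := rad / 2 * psum (conv (ca N) (cb N - ca N)) j) ?_ ?_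
        · unfold psum
          rw [Finset.mul_sum]
          refine Finset.sum_le_sum fun i _ => ?_
          rw [ca_succ, abs_div, pow_succ]
          have h2 : (2 : ℝ) ≤ |2 * ((i : ℝ) + 1)| := by
            rw [abs_of_pos (by positivity)]; nlinarith [Nat.cast_nonneg (α := ℝ) i]
          have hr := rad_pos
          calc |conv (ca N) (cb N - ca N) i| / |2 * ((i : ℝ) + 1)| * (rad ^ i * rad)
              ≤ |conv (ca N) (cb N - ca N) i| / 2 * (rad ^ i * rad) := by gcongr
            _ = rad / 2 * (|conv (ca N) (cb N - ca N) i| * rad ^ i) := by ring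
        · norm_num [rad]; linarith
    have hdelta : Bdd (fun i : ℕ => if i = 0 then (1:ℝ) else 0) := by
      refine summable_of_ne_finset_zero (s := {0}) fun i hi => ?_
      simp only [Finset.mem_singleton] at hi
      simp [hi]
    have h := habs s (ha.sub hdelta) hs' hshift
    rw [ev_sub ha hdelta hs'] at h
    have e1 : ev (fun i : ℕ => if i = 0 then (1:ℝ) else 0) s = 1 := by
      unfold ev
      rw [tsum_eq_single 0] <;> simp +contextual
    rw [e1] at h
    linarith [abs_le.mp h]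
  refine ⟨hAlow, le_of_abs_le (habs s ha hs' fun j => (coeff_bounds hN j).1),
    habs s hb hs' fun j => (coeff_bounds hN j).2.1, dA, ?_⟩
  -- the `d` identity
  have hN1 : (N - 1) ≠ 0 := by linarith
  have ed : (N - 1) * ev d s = 1 - 2 * (s * ev a s) * ev d s := by
    have e : (N - 1) • d = (fun i : ℕ => if i = 0 then (1:ℝ) else 0) - (2:ℝ) • sh (conv a d) := by
      funext i
      cases i with
      | zero => simp [d, cd_zero, sh]; field_simp
      | succ i => simp [d, a, cd_succ, sh]; field_simp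
    have hdelta : Bdd (fun i : ℕ => if i = 0 then (1:ℝ) else 0) := by
      refine summable_of_ne_finset_zero (s := {0}) fun i hi => ?_
      simp only [Finset.mem_singleton] at hi
      simp [hi]
    have := congrArg (fun f => ev f s) e
    simp only [ev_smul, ev_sub hdelta ((ha.conv hd).sh.smul 2) hs', ev_sh (ha.conv hd) hs',
      ev_conv ha hd hs'] at this
    rw [this]
    have e1 : ev (fun i : ℕ => if i = 0 then (1:ℝ) else 0) s = 1 := by
      unfold ev
      rw [tsum_eq_single 0] <;> simp +contextual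
    rw [e1]; ring
  have eD : ev d s = 1 / (N - 1 + 2 * (s * ev a s)) := by
    refine eq_one_div_of_mul_eq_one_left ?_
    linarith
  have eT : ev T s = ev a s + (N + 2) * (ev a s * ev d s + 2 * (s * (ev b s * (ev a s * ev d s)))) := by
    rw [hT, tseq, ev_add ha ((((ha.conv hd)).add ((hb.conv (ha.conv hd)).sh.smul 2)).smul _) hs',
      ev_smul, ev_add (ha.conv hd) ((hb.conv (ha.conv hd)).sh.smul 2) hs', ev_smul,
      ev_sh (hb.conv (ha.conv hd)) hs', ev_conv hb (ha.conv hd) hs', ev_conv ha hd hs']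
  -- derivative of `s B`
  have h := ev_hasDerivAt hb.sh hs
  have e : (fun i : ℕ => ((i : ℝ) + 1) * sh b (i + 1)) = (1 / 2 : ℝ) •
      ((T - (N - 1) • b) + sh (conv b T - (N - 1) • conv b b)) := by
    funext i
    have hne : (2 * (i : ℝ) + N + 1) ≠ 0 := by
      have := Nat.cast_nonneg (α := ℝ) i; linarith
    have hb' : b i * (2 * (i : ℝ) + N + 1) = T i + sh (conv b T - (N - 1) • conv b b) i := by
      show cb N i * _ = _
      rw [cb_eq N i, div_mul_cancel₀ _ hne]
    simp only [Pi.smul_apply, Pi.add_apply, Pi.sub_apply, smul_eq_mul]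
    show ((i : ℝ) + 1) * b i = _
    linarith
  rw [e, ev_smul, ev_add (hTb.sub (hb.smul _))
      ((hb.conv hTb).sub ((hb.conv hb).smul _)).sh hs', ev_sub hTb (hb.smul _) hs', ev_smul,
    ev_sh ((hb.conv hTb).sub ((hb.conv hb).smul _)) hs',
    ev_sub (hb.conv hTb) ((hb.conv hb).smul _) hs', ev_smul, ev_conv hb hTb hs',
    ev_conv hb hb hs', eT, eD] at h
  have hev : (fun y => y * ev b y) =ᶠ[𝓝 s] ev (sh b) := by
    filter_upwards [(isOpen_lt continuous_abs continuous_const).mem_nhds hs] with y hy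
    exact (ev_sh hb (le_of_lt hy)).symm
  refine (h.congr_of_eventuallyEq hev).congr_deriv ?_
  ring

end

end Vale.Agent.P252
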