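import Mathlib
import Vale.Agent.P252.Series

/-!
Continuation of the local solution to all `s ≥ 0` by the invariant rectangle
`0 ≤ s A ≤ 9/2`, `0 ≤ s B ≤ 5/2` (invariant for `N ≥ 10`).
-/

namespace Vale.Agent.P252

open Set Topology
open scoped ContDiff NNReal

noncomputable section

/-- The autonomous planar vector field in `t = log s`, `v = s A`, `y = s B`. -/
def field (N : ℝ) (p : ℝ × ℝ) : ℝ × ℝ :=
  (p.1 * (2 + p.2 - p.1) / 2,
    (1 + p.2) * (p.1 * (N + 2) * (1 + 2 * p.2) / (N - 1 + 2 * p.1) - (N - 1) * p.2 + p.1) / 2)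

/-- Projection onto the rectangle. -/
def clampBox (p : ℝ × ℝ) : ℝ × ℝ := (max 0 (min p.1 (9 / 2)), max 0 (min p.2 (5 / 2)))

lemma clampBox_mem (p : ℝ × ℝ) : clampBox p ∈ Icc (0 : ℝ) (9 / 2) ×ˢ Icc (0 : ℝ) (5 / 2) := by
  refine ⟨⟨le_max_left _ _, max_le (by norm_num) (min_le_right _ _)⟩,
    ⟨le_max_left _ _, max_le (by norm_num) (min_le_right _ _)⟩⟩

lemma clampBox_eq {p : ℝ × ℝ} (h : p ∈ Icc (0 : ℝ) (9 / 2) ×ˢ Icc (0 : ℝ) (5 / 2)) :
    clampBox p = p := by
  obtain ⟨⟨a1, a2⟩, ⟨b1, b2⟩⟩ := h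
  simp [clampBox, min_eq_left a2, min_eq_left b2, max_eq_right a1, max_eq_right b1]

lemma clampBox_lipschitz : LipschitzWith 1 clampBox := by
  have h := fun (c : ℝ) => (LipschitzWith.id.min_const c).const_max (0 : ℝ)
  have h1 := (h (9/2)).comp (LipschitzWith.prod_fst (α := ℝ) (β := ℝ))
  have h2 := (h (5/2)).comp (LipschitzWith.prod_snd (α := ℝ) (β := ℝ))
  exact (h1.prodMk h2).weaken (by simp)

lemma field_contDiffAt {N : ℝ} (hN : 10 ≤ N) {p : ℝ × ℝ}
    (hp : p ∈ Icc (0 : ℝ) (9 / 2) ×ˢ Icc (0 : ℝ) (5 / 2)) : ContDiffAt ℝ 1 (field N) p := by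
  have : N - 1 + 2 * p.1 ≠ 0 := by have := hp.1.1; linarith
  unfold field
  fun_prop (disch := assumption)

lemma clamped_bounds {N : ℝ} (hN : 10 ≤ N) :
    ∃ K L : ℝ≥0, LipschitzWith K (field N ∘ clampBox) ∧ ∀ p, ‖field N (clampBox p)‖ ≤ L := by
  set R := Icc (0 : ℝ) (9 / 2) ×ˢ Icc (0 : ℝ) (5 / 2)
  have hc : IsCompact R := isCompact_Icc.prod isCompact_Icc
  have hll : LocallyLipschitzOn R (field N) := by
    intro p hp
    obtain ⟨K, t, ht, hK⟩ := (field_contDiffAt hN hp).exists_lipschitzOnWith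
    exact ⟨K, t, mem_nhdsWithin_of_mem_nhds ht, hK⟩
  obtain ⟨K, hK⟩ := hll.exists_lipschitzOnWith_of_compact hc
  have hcont : ContinuousOn (field N) R :=
    fun p hp => (field_contDiffAt hN hp).continuousAt.continuousWithinAt
  obtain ⟨L, hL⟩ := hc.exists_bound_of_continuousOn hcont
  refine ⟨K * 1, L.toNNReal, ?_, fun p => (hL _ (clampBox_mem p)).trans (le_max_left _ _)⟩
  rw [← lipschitzOnWith_univ]
  exact hK.comp clampBox_lipschitz.lipschitzOnWith fun p _ => clampBox_mem p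

lemma clamped_global {N : ℝ} (hN : 10 ≤ N) (x₀ : ℝ × ℝ) :
    ∃ x : ℝ → ℝ × ℝ, x 0 = x₀ ∧ ∀ t, -1 < t → HasDerivAt x (field N (clampBox (x t))) t := by
  obtain ⟨K, L, hK, hL⟩ := clamped_bounds hN
  have hsol : ∀ k : ℕ, ∃ α : ℝ → ℝ × ℝ, α 0 = x₀ ∧ ∀ t ∈ Icc (-1 : ℝ) ((k : ℝ) + 1),
      HasDerivWithinAt α (field N (clampBox (α t))) (Icc (-1 : ℝ) ((k : ℝ) + 1)) t := by
    intro k
    have h0 : (0 : ℝ) ∈ Icc (-1 : ℝ) ((k : ℝ) + 1) := ⟨by norm_num, by positivity⟩
    have pl : IsPicardLindelof (fun _ => field N ∘ clampBox) ⟨0, h0⟩ x₀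
        (L * ((k : ℝ≥0) + 1)) 0 L K :=
      { lipschitzOnWith := fun t _ => hK.lipschitzOnWith
        continuousOn := fun x _ => continuousOn_const
        norm_le := fun t _ x _ => hL x
        mul_max_le := by
          push_cast
          simp }
    exact pl.exists_eq_forall_mem_Icc_hasDerivWithinAt₀
  choose α hα0 hα using hsol
  have huniq : ∀ i j : ℕ, i ≤ j → EqOn (α i) (α j) (Icc (-1 : ℝ) ((i : ℝ) + 1)) := by
    intro i j hij
    have hsub : Icc (-1 : ℝ) ((i : ℝ) + 1) ⊆ Icc (-1 : ℝ) ((j : ℝ) + 1) :=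
      Icc_subset_Icc le_rfl (by exact_mod_cast Nat.succ_le_succ hij)
    refine ODE_solution_unique_of_mem_Icc (v := fun _ => field N ∘ clampBox) (s := fun _ => univ)
      (K := K) (fun t _ => hK.lipschitzOnWith) (t₀ := 0) ⟨by norm_num, by positivity⟩
      (fun t ht => (hα i t ht).continuousWithinAt) (fun t ht => ?_) (fun _ _ => mem_univ _)
      (fun t ht => ((hα j t (hsub ht)).mono hsub).continuousWithinAt) (fun t ht => ?_)
      (fun _ _ => mem_univ _) ((hα0 i).trans (hα0 j).symm)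
    · exact (hα i t (Ioo_subset_Icc_self ht)).hasDerivAt (Icc_mem_nhds ht.1 ht.2)
    · exact ((hα j t (hsub (Ioo_subset_Icc_self ht))).mono hsub).hasDerivAt (Icc_mem_nhds ht.1 ht.2)
  refine ⟨fun t => α ⌈max t 0⌉₊ t, by simp [hα0], fun t ht => ?_⟩
  obtain ⟨k, hk⟩ := exists_nat_gt (max t 0 + 1)
  have hmem : ∀ u, -1 ≤ u → u ∈ Icc (-1 : ℝ) ((⌈max u 0⌉₊ : ℝ) + 1) := fun u hu =>
    ⟨hu, by linarith [le_max_left u 0, Nat.le_ceil (max u 0)]⟩
  have heq : ∀ u, -1 ≤ u → u ≤ max t 0 + 1 → α ⌈max u 0⌉₊ u = α k u := by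
    intro u hu1 hu2
    refine huniq _ _ (Nat.ceil_le.mpr ?_) (hmem u hu1)
    have := le_max_right t 0
    exact max_le (by linarith) (by linarith)
  have hd : HasDerivAt (α k) (field N (clampBox (α k t))) t := by
    refine (hα k t ⟨ht.le, ?_⟩).hasDerivAt (Icc_mem_nhds ht ?_) <;>
      linarith [le_max_left t 0]
  have hev : (fun u => α ⌈max u 0⌉₊ u) =ᶠ[𝓝 t] α k := by
    filter_upwards [Icc_mem_nhds ht (by linarith [le_max_left t 0] : t < max t 0 + 1)] with u hu
    exact heq u hu.1 hu.2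
  have he := hev.eq_of_nhds
  simp only at he ⊢
  rw [he]
  exact hd.congr_of_eventuallyEq hev

lemma stays_le {f f' : ℝ → ℝ} {c : ℝ} (hf : ∀ t, 0 ≤ t → HasDerivAt f (f' t) t) (h0 : f 0 ≤ c)
    (hb : ∀ t, 0 ≤ t → c ≤ f t → f' t ≤ 0) : ∀ t, 0 ≤ t → f t ≤ c := by
  intro T hT
  refine le_of_forall_pos_le_add fun ε hε => ?_
  have hε' : 0 < ε / (T + 1) := by positivity
  have h := image_le_of_deriv_right_lt_deriv_boundary (a := 0) (b := T)
    (fun t ht => (hf t ht.1).continuousAt.continuousWithinAt)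
    (fun t ht => (hf t ht.1).hasDerivWithinAt)
    (B := fun t => c + ε / (T + 1) * (t + 1)) (B' := fun _ => ε / (T + 1))
    (by nlinarith) (fun x => by simpa using (((hasDerivAt_id x).add_const 1).const_mul (ε / (T + 1))).const_add c)
    (fun t ht he => lt_of_le_of_lt (hb t ht.1 (by nlinarith [ht.1])) hε')
    (show T ∈ Icc 0 T from ⟨hT, le_rfl⟩)
  rwa [div_mul_cancel₀] at h
  linarith

lemma invariant {N : ℝ} (hN : 10 ≤ N) {x : ℝ → ℝ × ℝ}
    (hx : ∀ t, -1 < t → HasDerivAt x (field N (clampBox (x t))) t)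
    (hv0 : 0 < (x 0).1) (hv1 : (x 0).1 ≤ 9 / 2) (hy0 : 0 ≤ (x 0).2) (hy1 : (x 0).2 ≤ 5 / 2) :
    ∀ t, 0 ≤ t → 0 < (x t).1 ∧ x t ∈ Icc (0 : ℝ) (9 / 2) ×ˢ Icc (0 : ℝ) (5 / 2) := by
  have d1 : ∀ t, 0 ≤ t → HasDerivAt (fun u => (x u).1) (field N (clampBox (x t))).1 t :=
    fun t ht => (ContinuousLinearMap.fst ℝ ℝ ℝ).hasFDerivAt.comp_hasDerivAt t (hx t (by linarith))
  have d2 : ∀ t, 0 ≤ t → HasDerivAt (fun u => (x u).2) (field N (clampBox (x t))).2 t :=
    fun t ht => (ContinuousLinearMap.snd ℝ ℝ ℝ).hasFDerivAt.comp_hasDerivAt t (hx t (by linarith))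
  have u1 : ∀ t, 0 ≤ t → (x t).1 ≤ 9 / 2 := by
    refine stays_le d1 hv1 fun t ht hc => ?_
    have hm := clampBox_mem (x t)
    have hv : (clampBox (x t)).1 = 9 / 2 := by
      simp only [clampBox]; rw [min_eq_right hc]; norm_num
    simp only [field, hv]
    nlinarith [hm.2.2]
  have u2 : ∀ t, 0 ≤ t → (x t).2 ≤ 5 / 2 := by
    refine stays_le d2 hy1 fun t ht hc => ?_
    have hm := (clampBox_mem (x t)).1
    have hy : (clampBox (x t)).2 = 5 / 2 := by
      simp only [clampBox]; rw [min_eq_right hc]; norm_num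
    simp only [field, hy]
    set v := (clampBox (x t)).1
    have hD : 0 < N - 1 + 2 * v := by linarith [hm.1]
    have key : v * (N + 2) * (1 + 2 * (5 / 2)) / (N - 1 + 2 * v) ≤ (N - 1) * (5 / 2) - v := by
      rw [div_le_iff₀ hD]
      nlinarith [mul_nonneg hm.1 (sub_nonneg.2 hm.2), mul_nonneg (sub_nonneg.2 hN) (sub_nonneg.2 hm.2),
        mul_nonneg (mul_nonneg (sub_nonneg.2 hN) (sub_nonneg.2 hN)) (sub_nonneg.2 hm.2),
        mul_nonneg (sub_nonneg.2 hN) hm.1, mul_nonneg (sub_nonneg.2 hN) (sub_nonneg.2 hN)]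
    linarith
  have l2 : ∀ t, 0 ≤ t → 0 ≤ (x t).2 := by
    intro t ht
    have := stays_le (f := fun u => -(x u).2) (c := 0) (fun t ht => (d2 t ht).neg) (by simpa using hy0)
      (fun t ht hc => ?_) t ht
    · linarith
    have hm := (clampBox_mem (x t)).1
    have hy : (clampBox (x t)).2 = 0 := by
      simp only [clampBox]
      rw [min_eq_left (by linarith), max_eq_left (by linarith)]
    simp only [field, hy]
    have hD : 0 < N - 1 + 2 * (clampBox (x t)).1 := by linarith [hm.1]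
    have : 0 ≤ (clampBox (x t)).1 * (N + 2) * (1 + 2 * 0) / (N - 1 + 2 * (clampBox (x t)).1) := by
      have := hm.1
      positivity
    linarith [hm.1]
  have l1 : ∀ t, 0 ≤ t → 0 ≤ (x t).1 := by
    intro t ht
    have := stays_le (f := fun u => -(x u).1) (c := 0) (fun t ht => (d1 t ht).neg)
      (by simpa using hv0.le) (fun t ht hc => ?_) t ht
    · linarith
    have hv : (clampBox (x t)).1 = 0 := by
      simp only [clampBox]
      rw [min_eq_left (by linarith), max_eq_left (by linarith)]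
    simp [field, hv]
  intro t ht
  have hbox : ∀ t, 0 ≤ t → x t ∈ Icc (0 : ℝ) (9 / 2) ×ˢ Icc (0 : ℝ) (5 / 2) :=
    fun t ht => ⟨⟨l1 t ht, u1 t ht⟩, ⟨l2 t ht, u2 t ht⟩⟩
  refine ⟨?_, hbox t ht⟩
  have hmono : MonotoneOn (fun u => (x u).1 * Real.exp (2 * u)) (Icc 0 t) := by
    refine monotoneOn_of_hasDerivWithinAt_nonneg (convex_Icc _ _)
      (fun u hu => ((d1 u hu.1).continuousAt.mul (by fun_prop)).continuousWithinAt)
      (f' := fun u => (field N (x u)).1 * Real.exp (2 * u) + (x u).1 * (Real.exp (2 * u) * 2))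
      (fun u hu => ?_) (fun u hu => ?_)
    · rw [interior_Icc] at hu
      have h1 := d1 u hu.1.le
      rw [clampBox_eq (hbox u hu.1.le)] at h1
      exact (h1.mul (by simpa using ((hasDerivAt_id u).const_mul (2:ℝ)).exp)).hasDerivWithinAt
    · rw [interior_Icc] at hu
      obtain ⟨⟨a1, a2⟩, ⟨b1, b2⟩⟩ := hbox u hu.1.le
      have he := Real.exp_pos (2 * u)
      simp only [field]
      have : 0 ≤ (x u).1 * (2 + (x u).2 - (x u).1) / 2 + 2 * (x u).1 := by nlinarith
      nlinarith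
  have := hmono (show (0:ℝ) ∈ Icc 0 t from ⟨le_rfl, ht⟩) (show t ∈ Icc 0 t from ⟨ht, le_rfl⟩) ht
  simp only [mul_zero, Real.exp_zero, mul_one] at this
  by_contra hneg
  push Not at hneg
  nlinarith [Real.exp_pos (2 * t)]

lemma contDiffOn_pair {S : Set ℝ} (hS : IsOpen S) {A Y fA fY : ℝ → ℝ}
    (hA : ∀ s ∈ S, HasDerivAt A (fA s) s) (hY : ∀ s ∈ S, HasDerivAt Y (fY s) s)
    (hreg : ∀ k : ℕ, ContDiffOn ℝ k A S → ContDiffOn ℝ k Y S →
      ContDiffOn ℝ k fA S ∧ ContDiffOn ℝ k fY S) :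
    ContDiffOn ℝ ∞ A S := by
  have main : ∀ k : ℕ, ContDiffOn ℝ k A S ∧ ContDiffOn ℝ k Y S := by
    intro k
    induction k with
    | zero =>
      exact ⟨contDiffOn_zero.mpr fun s hs => (hA s hs).continuousAt.continuousWithinAt,
        contDiffOn_zero.mpr fun s hs => (hY s hs).continuousAt.continuousWithinAt⟩
    | succ k ih =>
      obtain ⟨ga, gy⟩ := hreg k ih.1 ih.2
      constructor <;>
        rw [show ((k + 1 : ℕ) : WithTop ℕ∞) = (k : WithTop ℕ∞) + 1 by push_cast; rfl,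
          contDiffOn_succ_iff_deriv_of_isOpen hS]
      · exact ⟨fun s hs => (hA s hs).differentiableAt.differentiableWithinAt, by simp,
          ga.congr fun s hs => (hA s hs).deriv⟩
      · exact ⟨fun s hs => (hY s hs).differentiableAt.differentiableWithinAt, by simp,
          gy.congr fun s hs => (hY s hs).deriv⟩
  exact contDiffOn_infty.mpr fun k => (main k).1

/-- Global solution of the reduced system on `(-rad, ∞)`. -/
theorem global_solution {N : ℝ} (hN : 10 ≤ N) :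
    ∃ A B : ℝ → ℝ, ∀ s, -rad < s →
      ContDiffAt ℝ ∞ A s ∧ 0 < A s ∧ 0 < 1 + s * B s ∧ 0 < N - 1 + 2 * (s * A s) ∧
      HasDerivAt A (A s * (B s - A s) / 2) s ∧
      HasDerivAt (fun y => y * B y) ((1 + s * B s) *
        (A s * (N + 2) * (1 + 2 * (s * B s)) / (N - 1 + 2 * (s * A s))
          - (N - 1) * B s + A s) / 2) s := by
  obtain ⟨A₁, B₁, hsm, hloc, -, hB0⟩ := local_solution hN
  have hr := rad_pos
  have hcB : ContinuousAt B₁ 0 := (hsm 0 (by simpa using hr)).2.continuousAt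
  obtain ⟨ε, hε, hpos⟩ := Metric.eventually_nhds_iff.mp (hcB.eventually (lt_mem_nhds hB0))
  set s₀ := min (ε / 2) (rad / 2) with hs₀def
  have hs₀ : 0 < s₀ := lt_min (by positivity) (by positivity)
  have hs₀r : s₀ < rad := lt_of_le_of_lt (min_le_right _ _) (by linarith)
  have hBs₀ : 0 < B₁ s₀ := hpos (by
    rw [Real.dist_eq, sub_zero, abs_of_pos hs₀]
    exact lt_of_le_of_lt (min_le_left _ _) (by linarith))
  have habs₀ : |s₀| < rad := by rwa [abs_of_pos hs₀]
  obtain ⟨hA₀, hA₀', hB₀', -, -⟩ := hloc s₀ habs₀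
  have hradv : rad = 1 / 1000 := rfl
  obtain ⟨x, hx0, hx⟩ := clamped_global hN (s₀ * A₁ s₀, s₀ * B₁ s₀)
  have hinv := invariant hN hx (by rw [hx0]; positivity)
    (by rw [hx0]; simp only; nlinarith) (by rw [hx0]; simp only; positivity)
    (by rw [hx0]; simp only; nlinarith [(abs_le.mp hB₀').2])
  set A₂ : ℝ → ℝ := fun s => (x (Real.log (s / s₀))).1 / s with hA₂
  set B₂ : ℝ → ℝ := fun s => (x (Real.log (s / s₀))).2 / s with hB₂
  have hsol : ∀ s, s₀ ≤ s → 0 < A₂ s ∧ 0 ≤ B₂ s ∧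
      HasDerivAt A₂ (A₂ s * (B₂ s - A₂ s) / 2) s ∧
      HasDerivAt (fun y => y * B₂ y) ((1 + s * B₂ s) *
        (A₂ s * (N + 2) * (1 + 2 * (s * B₂ s)) / (N - 1 + 2 * (s * A₂ s))
          - (N - 1) * B₂ s + A₂ s) / 2) s := by
    intro s hs
    have hspos : 0 < s := lt_of_lt_of_le hs₀ hs
    set t := Real.log (s / s₀) with ht
    have ht0 : 0 ≤ t := Real.log_nonneg ((one_le_div hs₀).mpr hs)
    obtain ⟨hv, hbox⟩ := hinv t ht0
    have hlog : HasDerivAt (fun y => Real.log (y / s₀)) (1 / s) s := by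
      have := ((hasDerivAt_id s).div_const s₀).log (by simp only [id]; positivity)
      convert this using 1
      simp only [id]
      field_simp
      exact (div_self hspos.ne').symm
    have hxd := hx t (by linarith)
    rw [clampBox_eq hbox] at hxd
    have h := hxd.scomp s hlog
    have h1 := (ContinuousLinearMap.fst ℝ ℝ ℝ).hasFDerivAt.comp_hasDerivAt s h
    have h2 := (ContinuousLinearMap.snd ℝ ℝ ℝ).hasFDerivAt.comp_hasDerivAt s h
    simp only [ContinuousLinearMap.coe_fst', ContinuousLinearMap.coe_snd', Prod.smul_fst,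
      Prod.smul_snd, smul_eq_mul] at h1 h2
    refine ⟨div_pos hv hspos, div_nonneg hbox.2.1 hspos.le, ?_, ?_⟩
    · refine ((h1.div (hasDerivAt_id s) hspos.ne').congr_deriv ?_).congr_of_eventuallyEq
        (Filter.Eventually.of_forall fun y => rfl)
      simp only [field, hA₂, hB₂, Function.comp, ← ht, id]
      field_simp
      ring
    · have hev : (fun y => y * B₂ y) =ᶠ[𝓝 s] fun y => (x (Real.log (y / s₀))).2 := by
        filter_upwards [isOpen_ne.mem_nhds hspos.ne'] with y hy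
        simp only [hB₂]
        field_simp
      refine (h2.congr_deriv ?_).congr_of_eventuallyEq hev
      have hD : N - 1 + 2 * (x t).1 ≠ 0 := by linarith [hbox.1.1]
      simp only [field, hA₂, hB₂, ← ht]
      field_simp
  have hmatch : A₂ s₀ = A₁ s₀ ∧ B₂ s₀ = B₁ s₀ := by
    simp only [hA₂, hB₂, div_self hs₀.ne', Real.log_one, hx0]
    constructor <;> field_simp
  set A : ℝ → ℝ := fun s => if s ≤ s₀ then A₁ s else A₂ s with hAdef
  set B : ℝ → ℝ := fun s => if s ≤ s₀ then B₁ s else B₂ s with hBdef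
  have eA1 : ∀ y, y ≤ s₀ → A y = A₁ y := fun y hy => if_pos hy
  have eB1 : ∀ y, y ≤ s₀ → B y = B₁ y := fun y hy => if_pos hy
  have eA2 : ∀ y, s₀ ≤ y → A y = A₂ y := by
    intro y hy
    rcases hy.eq_or_lt with h | h
    · rw [← h, eA1 _ le_rfl, hmatch.1]
    · exact if_neg (not_le.mpr h)
  have eB2 : ∀ y, s₀ ≤ y → B y = B₂ y := by
    intro y hy
    rcases hy.eq_or_lt with h | h
    · rw [← h, eB1 _ le_rfl, hmatch.2]
    · exact if_neg (not_le.mpr h)
  have hall : ∀ s, -rad < s → 0 < A s ∧ 0 < 1 + s * B s ∧ 0 < N - 1 + 2 * (s * A s) ∧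
      HasDerivAt A (A s * (B s - A s) / 2) s ∧
      HasDerivAt (fun y => y * B y) ((1 + s * B s) *
        (A s * (N + 2) * (1 + 2 * (s * B s)) / (N - 1 + 2 * (s * A s))
          - (N - 1) * B s + A s) / 2) s := by
    intro s hs
    rcases le_or_gt s s₀ with hle | hgt
    · have habs : |s| < rad := abs_lt.mpr ⟨hs, lt_of_le_of_lt hle hs₀r⟩
      obtain ⟨p1, p2, p3, p4, p5⟩ := hloc s habs
      obtain ⟨q1, q2⟩ := abs_lt.mp habs
      obtain ⟨r1, r2⟩ := abs_le.mp p3
      rw [eA1 s hle, eB1 s hle]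
      refine ⟨p1, ?_, ?_, ?_⟩
      · nlinarith [abs_mul s (B₁ s), neg_abs_le (s * B₁ s), abs_nonneg s, abs_nonneg (B₁ s)]
      · nlinarith
      rcases hle.eq_or_lt with he | hlt
      · subst he
        obtain ⟨-, -, g1, g2⟩ := hsol _ le_rfl
        rw [hmatch.1, hmatch.2] at g1 g2
        constructor
        · have := (p4.hasDerivWithinAt.congr (fun y (hy : y ∈ Iic s₀) => eA1 y hy) (eA1 _ le_rfl)).union
            (g1.hasDerivWithinAt.congr (fun y (hy : y ∈ Ici s₀) => eA2 y hy) (eA2 _ le_rfl))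
          rwa [Iic_union_Ici, hasDerivWithinAt_univ] at this
        · have := (p5.hasDerivWithinAt.congr (f₁ := fun y => y * B y)
            (fun y (hy : y ∈ Iic s₀) => by simp only [eB1 y hy]) (by simp only [eB1 _ le_rfl])).union
            (g2.hasDerivWithinAt.congr (f₁ := fun y => y * B y)
            (fun y (hy : y ∈ Ici s₀) => by simp only [eB2 y hy]) (by simp only [eB2 _ le_rfl]))
          rwa [Iic_union_Ici, hasDerivWithinAt_univ] at this
      · constructor
        · exact p4.congr_of_eventuallyEq (by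
            filter_upwards [Iio_mem_nhds hlt] with y hy using eA1 y (le_of_lt hy))
        · exact p5.congr_of_eventuallyEq (by
            filter_upwards [Iio_mem_nhds hlt] with y hy using by rw [eB1 y (le_of_lt hy)])
    · obtain ⟨p1, p2, p4, p5⟩ := hsol s hgt.le
      rw [eA2 s hgt.le, eB2 s hgt.le]
      have hspos : 0 < s := hs₀.trans hgt
      refine ⟨p1, by positivity, by nlinarith, ?_, ?_⟩
      · exact p4.congr_of_eventuallyEq (by
          filter_upwards [Ioi_mem_nhds hgt] with y hy using eA2 y (le_of_lt hy))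
      · exact p5.congr_of_eventuallyEq (by
          filter_upwards [Ioi_mem_nhds hgt] with y hy using by rw [eB2 y (le_of_lt hy)])
  refine ⟨A, B, fun s hs => ⟨?_, hall s hs⟩⟩
  rcases lt_or_ge s s₀ with hlt | hge
  · refine (hsm s (abs_lt.mpr ⟨hs, hlt.trans hs₀r⟩)).1.congr_of_eventuallyEq ?_
    filter_upwards [Iio_mem_nhds hlt] with y hy using eA1 y (le_of_lt hy)
  · have hcd : ContDiffOn ℝ ∞ A (Ioi 0) := by
      refine contDiffOn_pair isOpen_Ioi (Y := fun y => y * B y)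
        (fA := fun s => A s * ((s * B s) / s - A s) / 2)
        (fY := fun s => (1 + s * B s) * (A s * (N + 2) * (1 + 2 * (s * B s))
          / (N - 1 + 2 * (s * A s)) - (N - 1) * ((s * B s) / s) + A s) / 2)
        (fun s hs => ?_) (fun s hs => ?_) (fun k hA hY => ?_)
      · have h := (hall s (lt_trans (by linarith) (mem_Ioi.mp hs))).2.2.2.1
        rwa [mul_div_cancel_left₀ _ (mem_Ioi.mp hs).ne']
      · have h := (hall s (lt_trans (by linarith) (mem_Ioi.mp hs))).2.2.2.2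
        rwa [mul_div_cancel_left₀ _ (mem_Ioi.mp hs).ne']
      · have hD : ∀ s ∈ Ioi (0:ℝ), N - 1 + 2 * (s * A s) ≠ 0 := fun s hs =>
          (hall s (lt_trans (by linarith) (mem_Ioi.mp hs))).2.2.1.ne'
        have hne : ∀ s ∈ Ioi (0:ℝ), s ≠ 0 := fun s hs => ne_of_gt hs
        have hYs : ContDiffOn ℝ k (fun s => (s * B s) / s) (Ioi 0) := hY.div contDiffOn_id hne
        have hden : ContDiffOn ℝ k (fun s => N - 1 + 2 * (s * A s)) (Ioi 0) :=
          contDiffOn_const.add (contDiffOn_const.mul (contDiffOn_id.mul hA))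
        exact ⟨(hA.mul (hYs.sub hA)).div_const 2,
          ((contDiffOn_const.add hY).mul (((((hA.mul contDiffOn_const).mul
            (contDiffOn_const.add (contDiffOn_const.mul hY))).div hden hD).sub
            (contDiffOn_const.mul hYs)).add hA)).div_const 2⟩
    exact hcd.contDiffAt (Ioi_mem_nhds (lt_of_lt_of_le hs₀ hge))

end

end Vale.Agent.P252
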